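import Mathlib

open scoped ContDiff
open MeasureTheory Set Filter Topology

namespace Vale.Agent.P354c

/-- Coordinate space of all charts. -/
abbrev R4 : Type := ℝ × ℝ × ℝ × ℝ

/-- The four coordinates. In double null charts they are called u, v, theta1, theta2. -/
def cu (x : R4) : ℝ := x.1
def cv (x : R4) : ℝ := x.2.1
def c1 (x : R4) : ℝ := x.2.2.1
def c2 (x : R4) : ℝ := x.2.2.2

/-- The coordinate vectors. -/
def du : R4 := (1, 0, 0, 0)
def dv : R4 := (0, 1, 0, 0)
def d1 : R4 := (0, 0, 1, 0)
def d2 : R4 := (0, 0, 0, 1)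

/-- The point x is in D. -/
def In (x : R4) (D : Set R4) : Prop := x ∈ D

/-- The derivative of f at x in the direction a. -/
noncomputable def deriv (f : R4 → ℝ) (x a : R4) : ℝ := lineDeriv ℝ f x a

/-- The integral of f. -/
noncomputable def int (f : R4 → ℝ) : ℝ := ∫ x, f x

/-- The function f is smooth on D. -/
def IsSmooth (f : R4 → ℝ) (D : Set R4) : Prop := ContDiffOn ℝ ∞ f D

/-- The function f is locally Lipschitz on D. -/
def IsLip (f : R4 → ℝ) (D : Set R4) : Prop := LocallyLipschitzOn D f

/-- The function f is continuous on the open set D, and its distributional derivatives of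
first order are in L^p on compact subsets of D. -/
def IsC0W1 (p : ENNReal) (f : R4 → ℝ) (D : Set R4) : Prop :=
  ContinuousOn f D ∧ ∀ a, ∃ h : R4 → ℝ, ∀ Q ⊆ D, IsCompact Q → MemLp (Q.indicator h) p ∧
    ∀ φ, IsSmooth φ univ → tsupport φ ⊆ Q →
      int (fun x => f x * deriv φ x a) = - int fun x => h x * φ x

/-- A Hausdorff space pt with an atlas of charts toE with values in R4, a field g of bilinear
forms and a field X of vectors: g e y a b is the value, at the point with coordinates y in the
chart e, on the vectors with components a, b, and X e y is the vector of components. -/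
structure Spc where
  pt : Type
  [top : TopologicalSpace pt]
  [hausdorff : T2Space pt]
  Chart : Type
  toE : Chart → OpenPartialHomeomorph pt R4
  cover : ∀ p, ∃ e, p ∈ (toE e).source
  g : Chart → R4 → R4 → R4 → ℝ
  X : Chart → R4 → R4

attribute [instance] Spc.top Spc.hausdorff

variable {M N : Spc}

/-- The domain of the chart e, its image, the chart and its inverse. -/
def On (e : M.Chart) (p : M.pt) : Prop := p ∈ (M.toE e).source
def tgt (e : M.Chart) : Set R4 := (M.toE e).target
def co (e : M.Chart) (p : M.pt) : R4 := M.toE e p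
def inv (e : M.Chart) (y : R4) : M.pt := (M.toE e).symm y

/-- f is smooth, isometric, and preserves the time orientation. In charts f is F. -/
def IsIsom (f : M.pt → N.pt) : Prop :=
  ∀ e e' F, F = (fun y => co e' (f (inv e y))) → ∀ y, In y (tgt e) → On e' (f (inv e y)) →
    ContDiffAt ℝ ∞ F y ∧
    (∀ a b, M.g e y a b = N.g e' (F y) (lineDeriv ℝ F y a) (lineDeriv ℝ F y b)) ∧
    N.g e' (F y) (lineDeriv ℝ F y (M.X e y)) (N.X e' (F y)) < 0

/-- The Minkowski form. -/
def mink (a b : R4) : ℝ := -(cu a * cu b) + cv a * cv b + c1 a * c1 b + c2 a * c2 b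

/-- The atlas of M is smooth, g is a Lorentzian metric of signature (-,+,+,+), whose
components in charts have the regularity Reg, and X defines a time orientation. -/
structure IsSpacetime (Reg : (R4 → ℝ) → Set R4 → Prop) (M : Spc) : Prop where
  tensor : IsIsom (M := M) (N := M) id
  signature : ∀ e y, In y (tgt e) → ∃ L : R4 → R4, IsLinearMap ℝ L ∧ L.Injective ∧
    ∀ a b, M.g e y a b = mink (L a) (L b)
  timelike : ∀ e y, In y (tgt e) → M.g e y (M.X e y) (M.X e y) < 0
  continuous : ∀ e, ContinuousOn (M.X e) (tgt e)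
  regular : ∀ e a b, Reg (fun y => M.g e y a b) (tgt e)

/-- The intervals [0,1] and [0,1). -/
def I : Set ℝ := Icc 0 1
def J : Set ℝ := Ico 0 1

/-- The curve c is C^1 on the interval A, its velocity w is timelike and future directed, and
g(w,w) < -m. -/
def IsFutureCurve (M : Spc) (m : ℝ) (A : Set ℝ) (c : ℝ → M.pt) : Prop :=
  ContinuousOn c A ∧ ∀ t ∈ A, ∀ e, On e (c t) → ContDiffWithinAt ℝ 1 (fun s => co e (c s)) A t ∧
    ∀ y w, y = co e (c t) → w = derivWithin (fun s => co e (c s)) A t →
      M.g e y w w < -m ∧ M.g e y w (M.X e y) < 0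

/-- The map iota and the curve c form a future extension of M to N, whose metric has the
regularity Reg. -/
structure IsFutureExtension (Reg : (R4 → ℝ) → Set R4 → Prop) (M N : Spc) (ι : M.pt → N.pt)
    (c : ℝ → N.pt) : Prop where
  spacetime : IsSpacetime Reg N
  embedding : IsOpenEmbedding ι
  isometry : IsIsom ι
  curve : IsFutureCurve N 0 I c
  curve_mem : ∀ t ∈ J, ∃ x, ι x = c t
  curve_end : c 1 ∈ frontier (range ι)

section

/- The functions C 0, ..., C 7 are the coefficients g11, 2 g12, g22, 2 om, s1, s2, w1, w2 of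
-2 om du dv + gAB (dthetaA - sA dv - wA du) (dthetaB - sB dv - wB du). -/
variable (C : ℕ → R4 → ℝ)

/-- The components dthetaA - sA dv - wA du of the vector a. -/
def h1 (x a : R4) : ℝ := c1 a - C 4 x * cv a - C 6 x * cu a
def h2 (x a : R4) : ℝ := c2 a - C 5 x * cv a - C 7 x * cu a

/-- The double null form at the point x, on the vector a. -/
def form (x a : R4) : ℝ :=
  C 0 x * h1 C x a ^ 2 + C 1 x * h1 C x a * h2 C x a + C 2 x * h2 C x a ^ 2 - C 3 x * cu a * cv a

/-- The vector with components a in the frame du, dv + s1 d1 + s2 d2, d1, d2. -/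
def fr (x a : R4) : R4 := (cu a, cv a, c1 a + C 4 x * cv a, c2 a + C 5 x * cv a)

end

/-- On the part D of the chart e, the metric is in double null form with v increasing to the
future, with smooth coefficients C; the coefficients, their angular derivatives and the torsion
are bounded by K, om and gAB are bounded below by 1/K, the v derivatives of gAB and om are
bounded by k(v), where k is integrable, and their u derivatives by n(u). -/
structure IsDNBox (M : Spc) (e : M.Chart) (C : ℕ → R4 → ℝ) (D : Set R4) (K : ℝ)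
    (k n : ℝ → ℝ) : Prop where
  subset : D ⊆ tgt e
  smooth : ∀ i, IsSmooth (C i) D
  metric : ∀ x, In x D → (∀ a, M.g e x a a = form C x a) ∧ 0 < cv (M.X e x) ∧ 1 ≤ K * C 3 x ∧
    (∀ a, cu a = 0 → cv a = 0 → ‖a‖ ^ 2 ≤ K * form C x a ∧
      ∀ i < 8, |C i x| ≤ K ∧ |deriv (C i) x a| ≤ K * ‖a‖) ∧
    (∀ i, i = 4 ∨ i = 5 → |deriv (C i) x du - deriv (C (i + 2)) x dv| ≤ K) ∧
    ∀ i < 4, |deriv (C i) x dv| ≤ k (cv x) ∧ |deriv (C i) x du| ≤ n (cu x)
  integrable : Measurable k ∧ Integrable k

/-- The curve a, restricted to [0,1), ends at the point z of the closure of the part D of the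
chart e. -/
def EndsAt {M : Spc} (a : ℝ → M.pt) (e : M.Chart) (D : Set R4) (z : R4) : Prop :=
  (∀ᶠ t in 𝓝[<] 1, On e (a t) ∧ In (co e (a t)) D) ∧
    Tendsto (fun t => co e (a t)) (𝓝[<] 1) (𝓝 z)

/-- The part v < 0 of the cube of radius r about z. -/
def nullBox (z : R4) (r : ℝ) : Set R4 := {x | In x (Metric.ball z r) ∧ cv x < 0}

/-- The part u < 0, v < 0 of the cube of radius r about z. -/
def cornerBox (z : R4) (r : ℝ) : Set R4 := {x | In x (nullBox z r) ∧ cu x < 0}

/-- The vector G x a b is the covariant derivative of b in the direction a, for the metric g. -/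
def IsConn (g : R4 → R4 → R4 → ℝ) (G : R4 → R4 → R4 → R4) (x : R4) : Prop :=
  ∀ a b c, g x (G x a b) c + g x (G x a b) c =
    deriv (fun y => g y b c) x a + deriv (fun y => g y a c) x b - deriv (fun y => g y a b) x c

/-- The curvature of the metric g. -/
noncomputable def Riem (g : R4 → R4 → R4 → ℝ) (G : R4 → R4 → R4 → R4) (x a b c d : R4) : ℝ :=
  deriv (fun y => g y (G y b c) d) x a - deriv (fun y => g y (G y a c) d) x b -
    g x (G x b c) (G x a d) + g x (G x a c) (G x b d)

/-- The integrals of phi F, for functions phi with support in D, are not bounded by a multiple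
of the integral of h |phi| + |d1 phi| + |d2 phi| + s (|du phi| + |dv phi|). -/
def IsBig (D : Set R4) (s : ℝ) (h F : R4 → ℝ) : Prop :=
  ∀ L : ℝ, ∃ φ : R4 → ℝ, ContDiff ℝ 1 φ ∧ tsupport φ ⊆ D ∧
    L * int (fun x => h x * |φ x| + |deriv φ x d1| + |deriv φ x d2| +
      s * (|deriv φ x du| + |deriv φ x dv|)) < |int fun x => φ x * F x|

/-- The curve a ends at a point z of a null hypersurface v = 0 which is a weak null
singularity: the v derivative of gAB is bounded by an integrable function k(v), but near every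
point, either a component of the curvature, as a distribution, is not bounded by
|dphi| + (1 + k(v)) |phi|, or the v derivative of gAB is not bounded by
|d1 phi| + |d2 phi| + |phi|. -/
def EndsAtFront (M : Spc) (a : ℝ → M.pt) : Prop :=
  ∃ e C z r K k G, IsDNBox M e C (nullBox z r) K k (fun _ => K) ∧ cv z = 0 ∧
    EndsAt a e (nullBox z r) z ∧
    (∀ x, In x (nullBox z r) → C 6 x = 0 ∧ C 7 x = 0 ∧ IsConn (M.g e) G x) ∧
    ∀ x, cv x = 0 → In x (Metric.ball z r) → ∀ c > 0,
      (∃ p q s t, IsBig (nullBox x c) 1 (fun y => 1 + k (cv y))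
        fun y => Riem (M.g e) G y (fr C y p) (fr C y q) (fr C y s) (fr C y t)) ∨
      ∃ i < 3, IsBig (nullBox x c) 0 (fun _ => 1) fun y => deriv (C i) y dv

/-- The curve a ends at a point z of the sphere u = v = 0 where the null hypersurfaces u = 0 and
v = 0 meet; curves that end elsewhere on these end at weak null singularities. -/
def EndsAtCorner (M : Spc) (a : ℝ → M.pt) : Prop :=
  ∃ e C z r K k, IsDNBox M e C (cornerBox z r) K k k ∧ cu z = 0 ∧ cv z = 0 ∧
    EndsAt a e (cornerBox z r) z ∧ ∀ b, IsFutureCurve M 0 J b → ∀ y,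
      EndsAt b e (cornerBox z r) y → In y (Metric.ball z r) → cu y * cv y = 0 →
      cu y + cv y < 0 → EndsAtFront M b

/-- For s arbitrarily close to 1, the curve a from s to t can be deformed through future timelike
curves with the same ends to arbitrarily long ones. -/
def IsFar (M : Spc) (a : ℝ → M.pt) : Prop :=
  ∀ b < 1, ∃ s ∈ Ioo b 1, ∀ L, ∃ t ∈ Ioo s 1, ∃ H : ℝ → ℝ → M.pt,
    ContinuousOn (fun p : ℝ × ℝ => H p.1 p.2) (I ×ˢ I) ∧ (∀ x, H 0 x = a (s + (t - s) * x)) ∧
    (∀ y ∈ I, IsFutureCurve M 0 I (H y) ∧ H y 0 = a s ∧ H y 1 = a t) ∧ IsFutureCurve M L I (H 1)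

/-- The three kinds of ends of future timelike curves. -/
def Ends (M : Spc) (a : ℝ → M.pt) : Prop :=
  EndsAtFront M a ∨ EndsAtCorner M a ∨ IsFar M a

/-- Every future timelike curve without future end point has one of these kinds of ends. -/
def AllEnd (M : Spc) : Prop :=
  ∀ a, IsFutureCurve M 0 J a → (∀ x, ¬ Tendsto a (𝓝[<] 1) (𝓝 x)) → Ends M a

end Vale.Agent.P354c
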