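import Vale.Agent.P354a.A3

set_option maxSynthPendingDepth 3

open Set MeasureTheory Filter Topology

namespace Vale.Agent.P354cb

open Vale.Agent.P354w Vale.Agent.P354x Vale.Agent.P354z Vale.Agent.P354a PreHyp CoreHyp

variable {K K' : Coef} {G : P4 → P4 →L[ℝ] P4 →L[ℝ] ℝ} {Psi : P4 → P4} {V U : Set P4}
    {C R : ℝ} {cv cw cu : ℝ → ℝ} {t0 r : ℝ} {f : P3 → ℝ} {T : P4 ≃L[ℝ] P4}

/-- **The averages of the `v` derivative are bounded**, first direction, uniformly. -/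
theorem avg1u (h : PreHyp K G Psi V U C R cv cw cu t0 r f) (hcu : ∀ u, cu u ≤ C) {L κ : ℝ}
    (hL : ∀ z ∈ DD t0 r f, ‖fderiv ℝ G z‖ ≤ L) (hκ : 1 ≤ κ) {O : Set P3} (hO : IsOpen O) {v0 : ℝ}
    (hin : ∀ y ∈ O, ∀ v ∈ Ico v0 0, ∃ z ∈ DD t0 r f, Psi z = ins v y ∧ QQ Psi z ≤ κ) :
    ∃ B : ℝ, 0 ≤ B ∧ ∀ φ : P3 → ℝ, ContDiff ℝ 1 φ → HasCompactSupport φ → tsupport φ ⊆ O →
      ∀ v ∈ Ico v0 0, Integrable (fun y => φ y * dg K (ins v y)) ∧
      |∫ y, φ y * dg K (ins v y)| ≤ B * ∫ y, (|fderiv ℝ φ y (1, 0, 0)| + |φ y|) := by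
  have := haarP3
  have hC : 1 ≤ C := one_le_C h
  obtain ⟨D, hD0, hD⟩ := pointwise_Fq h hC hcu (L := |L|) (κ := κ) (abs_nonneg _) hκ
  refine ⟨2 * D, by positivity, fun φ hφ hφc hφO v hv => ?_⟩
  have cφ' : Continuous (fun y => fderiv ℝ φ y (1, 0, 0)) :=
    (hφ.continuous_fderiv (by norm_num)).clm_apply continuous_const
  have iφ : Integrable φ := hφ.continuous.integrable_of_hasCompactSupport hφc
  have iφ' : Integrable (fun y => fderiv ℝ φ y (1, 0, 0)) :=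
    (integral_fderiv_zero hφ hφc _).1
  -- the integrand
  have hdc : ContinuousOn (fun y : P3 => dg K (ins v y)) O := by
    have hcins : Continuous (fun y : P3 => ins v y) := by unfold ins; fun_prop
    refine (continuousOn_dg h).comp hcins.continuousOn (fun y hy => ?_)
    obtain ⟨z, hz, hzy, _⟩ := hin y hy v hv
    show ins v y ∈ U
    rw [← hzy]; exact h.maps (h.DD_sub hz)
  have hc1 : Continuous (fun y => φ y * dg K (ins v y)) := by
    refine ContinuousOn.continuous_of_tsupport_subset (s := O)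
      (hφ.continuous.continuousOn.mul hdc) hO ?_
    exact (tsupport_mul_subset_left).trans hφO
  have hs1 : HasCompactSupport (fun y => φ y * dg K (ins v y)) := hφc.mul_right
  have i1 : Integrable (fun y => φ y * dg K (ins v y)) := hc1.integrable_of_hasCompactSupport hs1
  refine ⟨i1, ?_⟩
  -- the test function
  set g : P3 → ℝ := fun y => φ y * Fq K Psi (Phi Psi V (ins v y)) with hg
  have hgs : tsupport g ⊆ tsupport φ := tsupport_mul_subset_left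
  have hgd : ContDiff ℝ 1 g := by
    apply contDiff_tsupport
    intro y hy
    obtain ⟨z, hz, hzy, _⟩ := hin y (hφO (hgs hy)) v hv
    exact hφ.contDiffAt.mul (slice_diff h (h.DD_sub hz) hzy).1
  have hgc : HasCompactSupport g := hφc.mul_right
  obtain ⟨i2, e2⟩ := integral_fderiv_zero hgd hgc (1, 0, 0)
  have e3 : ∫ y, φ y * dg K (ins v y) =
      ∫ y, (φ y * dg K (ins v y) + 2 * fderiv ℝ g y (1, 0, 0)) := by
    rw [integral_add i1 (i2.const_mul 2), integral_const_mul, e2]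
    simp
  rw [e3, ← Real.norm_eq_abs, ← integral_const_mul]
  refine norm_integral_le_of_norm_le ((iφ'.abs.add iφ.abs).const_mul (2 * D)) ?_
  refine Filter.Eventually.of_forall fun y => ?_
  rw [Real.norm_eq_abs]
  by_cases hy : y ∈ tsupport φ
  · obtain ⟨z, hz, hzy, hQ⟩ := hin y (hφO hy) v hv
    have hzV := h.DD_sub hz
    have hP : Phi Psi V (ins v y) = z := by rw [← hzy]; exact h.Phi_left hzV
    obtain ⟨k1, k2⟩ := slice_diff h hzV hzy
    obtain ⟨m1, m2⟩ := hD z hzV ((hL z hz).trans (le_abs_self _)) hQ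
    have m3 := m2 _ (h.Zf_spec hzV)
    have d1 : HasFDerivAt g (φ y • fderiv ℝ (fun y => Fq K Psi (Phi Psi V (ins v y))) y +
        Fq K Psi (Phi Psi V (ins v y)) • fderiv ℝ φ y) y :=
      (hφ.differentiable (by norm_num) y).hasFDerivAt.mul
        (k1.differentiableAt (by norm_num)).hasFDerivAt
    rw [d1.fderiv, ContinuousLinearMap.add_apply, ContinuousLinearMap.smul_apply,
      ContinuousLinearMap.smul_apply, k2, hP, ← hzy, smul_eq_mul, smul_eq_mul]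
    generalize fderiv ℝ (Fq K Psi) z (Zf Psi V z) = q at *
    generalize Fq K Psi z = w at *
    generalize dg K (Psi z) = d at *
    generalize fderiv ℝ φ y (1, 0, 0) = φ' at *
    generalize φ y = p at *
    have e4 : p * d + 2 * (p * q + w * φ') = 2 * (p * (q + 1 / 2 * d)) + 2 * (w * φ') := by ring
    rw [e4]
    have n1 : |p * (q + 1 / 2 * d)| ≤ |p| * D := by rw [abs_mul]; gcongr
    have n2 : |w * φ'| ≤ D * |φ'| := by rw [abs_mul]; gcongr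
    rw [abs_le] at n1 n2 ⊢
    constructor <;> linarith [n1.1, n1.2, n2.1, n2.2]
  · have h1 : φ =ᶠ[𝓝 y] fun _ => (0:ℝ) := notMem_tsupport_iff_eventuallyEq.mp hy
    have h2 : g =ᶠ[𝓝 y] fun _ => (0:ℝ) := by
      filter_upwards [h1] with x hx
      rw [hg]; simp only; rw [hx, zero_mul]
    have h3 : φ y = 0 := h1.eq_of_nhds
    rw [h2.fderiv_eq, h1.fderiv_eq, h3]
    simp

/-- The averages in another direction. -/
theorem avg_tru (h : CoreHyp K G Psi V U C R cv cw cu t0 r f) (hT : Tr K K' T)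
    (hcv : ∫⁻ v in Ico (-(2 * R)) 0, ENNReal.ofReal (cv v) ≠ ⊤)
    (hcw : ∫⁻ v in Ico (-(2 * R)) 0, ENNReal.ofReal (cw v) ≠ ⊤)
    (hcu' : ∫⁻ u in Icc (-(2 * R)) (2 * R), ENNReal.ofReal (cu u) ≠ ⊤)
    (hcu : ∀ u, cu u ≤ C) {τ : P3 ≃L[ℝ] P3}
    (hτ : ∀ v y, ins v (τ y) = T (ins v y)) (hτm : MeasurePreserving (τ : P3 → P3) volume volume)
    {dK : P4 → ℝ} (hd : ∀ x ∈ U, dg K' (T x) = dK x) {L κ : ℝ}
    (hL : ∀ z ∈ DD t0 r f, ‖fderiv ℝ G z‖ ≤ L) (hκ : 1 ≤ κ) {O : Set P3} (hO : IsOpen O) {v0 : ℝ}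
    (hin : ∀ y ∈ O, ∀ v ∈ Ico v0 0, ∃ z ∈ DD t0 r f, Psi z = ins v y ∧ QQ Psi z ≤ κ) :
    ∃ B : ℝ, 0 ≤ B ∧ ∀ φ : P3 → ℝ, ContDiff ℝ 1 φ → HasCompactSupport φ → tsupport φ ⊆ O →
      ∀ v ∈ Ico v0 0, Integrable (fun y => φ y * dK (ins v y)) ∧
      |∫ y, φ y * dK (ins v y)| ≤ B * ∫ y, (|fderiv ℝ φ y (τ.symm (1, 0, 0))| + |φ y|) := by
  have h' := h.tr hT hcv hcw hcu'
  have hτemb : MeasurableEmbedding (τ : P3 → P3) := τ.toHomeomorph.measurableEmbedding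
  have hfd : ∀ z ∈ V, fderiv ℝ (fun z => T (Psi z)) z = (T : P4 →L[ℝ] P4).comp (fderiv ℝ Psi z) := by
    intro z hz
    have h1 : HasFDerivAt Psi (fderiv ℝ Psi z) z :=
      ((h.iso.contDiffAt hz).differentiableAt (by norm_num)).hasFDerivAt
    exact (T.hasFDerivAt.comp z h1).fderiv
  have hQ : ∀ z ∈ V, QQ (fun z => T (Psi z)) z = QQ Psi z := by
    intro z hz
    unfold QQ
    rw [hfd z hz]
    show (T (fderiv ℝ Psi z e1)).2.2.1 + (T (fderiv ℝ Psi z e1)).2.1 = _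
    rw [hT.u, hT.v]
  obtain ⟨B, hB0, hB⟩ := avg1u h'.toPreHyp (fun u => by have := hcu u; linarith) hL hκ
    (O := τ.symm ⁻¹' O) (hO.preimage τ.symm.continuous) (v0 := v0)
    (fun y hy v hv => by
      obtain ⟨z, hz, hzy, hzq⟩ := hin _ hy v hv
      refine ⟨z, hz, ?_, ?_⟩
      · rw [hzy, ← hτ]; simp
      · rw [hQ z (h.DD_sub hz)]; exact hzq)
  refine ⟨B, hB0, fun φ hφ hφc hφO v hv => ?_⟩
  have hts : tsupport (fun y => φ (τ.symm y)) = τ.symm ⁻¹' tsupport φ :=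
    tsupport_comp_eq_preimage φ τ.symm.toHomeomorph
  obtain ⟨k1, k2⟩ := hB (fun y => φ (τ.symm y)) (hφ.comp τ.symm.contDiff)
    (hφc.comp_homeomorph τ.symm.toHomeomorph)
    (by rw [hts]; exact preimage_mono hφO) v hv
  have e : (fun y => φ y * dK (ins v y)) =
      fun y => (fun y => φ (τ.symm y) * dg K' (ins v y)) (τ y) := by
    funext y
    simp only [ContinuousLinearEquiv.symm_apply_apply]
    by_cases hy : φ y = 0
    · rw [hy, zero_mul, zero_mul]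
    · have hyO : y ∈ O := hφO (subset_tsupport φ hy)
      obtain ⟨z, hz, hzy, _⟩ := hin y hyO v hv
      have hU : ins v y ∈ U := by rw [← hzy]; exact h.maps (h.DD_sub hz)
      rw [hτ, hd _ hU]
  rw [e]
  refine ⟨(hτm.integrable_comp_emb hτemb).2 k1, ?_⟩
  have e2 := hτm.integral_comp hτemb (fun y => φ (τ.symm y) * dg K' (ins v y))
  have e3 : ∫ y, (|fderiv ℝ φ y (τ.symm (1, 0, 0))| + |φ y|) =
      ∫ y, (|fderiv ℝ (fun y => φ (τ.symm y)) y (1, 0, 0)| + |φ (τ.symm y)|) := by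
    rw [← hτm.integral_comp hτemb
      (fun y => |fderiv ℝ (fun y => φ (τ.symm y)) y (1, 0, 0)| + |φ (τ.symm y)|)]
    refine integral_congr_ae (Filter.Eventually.of_forall fun y => ?_)
    simp only [ContinuousLinearEquiv.symm_apply_apply]
    have h1 : HasFDerivAt (fun y => φ (τ.symm y))
        ((fderiv ℝ φ (τ.symm (τ y))).comp (τ.symm : P3 →L[ℝ] P3)) (τ y) :=
      (hφ.differentiable (by norm_num) _).hasFDerivAt.comp (τ y) τ.symm.hasFDerivAt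
    rw [h1.fderiv, ContinuousLinearEquiv.symm_apply_apply]
    rfl
  rw [e3]
  refine le_trans (le_of_eq ?_) k2
  exact congrArg abs e2

/-- **The averages of the `v` derivatives of the metric are bounded.** -/
theorem avg3u (h : CoreHyp K G Psi V U C R cv cw cu t0 r f)
    (hcv : ∫⁻ v in Ico (-(2 * R)) 0, ENNReal.ofReal (cv v) ≠ ⊤)
    (hcw : ∫⁻ v in Ico (-(2 * R)) 0, ENNReal.ofReal (cw v) ≠ ⊤)
    (hcu' : ∫⁻ u in Icc (-(2 * R)) (2 * R), ENNReal.ofReal (cu u) ≠ ⊤)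
    (hcu : ∀ u, cu u ≤ C) {L : ℝ} (hL : ∀ z ∈ DD t0 r f, ‖fderiv ℝ G z‖ ≤ L) {O : Set P3}
    (hO : IsOpen O) {v0 : ℝ}
    (hin : ∀ y ∈ O, ∀ v ∈ Ico v0 0, ∃ z ∈ DD t0 r f, Psi z = ins v y ∧ ‖z.2‖ ≤ r / 4) :
    ∃ B : ℝ, 0 ≤ B ∧ ∀ φ : P3 → ℝ, ContDiff ℝ 1 φ → HasCompactSupport φ → tsupport φ ⊆ O →
      ∀ v ∈ Ico v0 0,
      |∫ y, φ y * fderiv ℝ K.g11 (ins v y) (e4 K (ins v y))| ≤
        B * ∫ y, (|fderiv ℝ φ y (1, 0, 0)| + |fderiv ℝ φ y (0, 0, 1)| + |φ y|) ∧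
      |∫ y, φ y * fderiv ℝ K.g12 (ins v y) (e4 K (ins v y))| ≤
        B * ∫ y, (|fderiv ℝ φ y (1, 0, 0)| + |fderiv ℝ φ y (0, 0, 1)| + |φ y|) ∧
      |∫ y, φ y * fderiv ℝ K.g22 (ins v y) (e4 K (ins v y))| ≤
        B * ∫ y, (|fderiv ℝ φ y (1, 0, 0)| + |fderiv ℝ φ y (0, 0, 1)| + |φ y|) := by
  have hKd : ∀ x ∈ U, K.DiffAt x := fun x hx => SmoothOn.diffAt h.smoothK h.openU hx
  obtain ⟨κ, hκ, hQ⟩ := QQ_bdd h hL
  have hin' : ∀ y ∈ O, ∀ v ∈ Ico v0 0, ∃ z ∈ DD t0 r f, Psi z = ins v y ∧ QQ Psi z ≤ κ := by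
    intro y hy v hv
    obtain ⟨z, hz, hzy, hzn⟩ := hin y hy v hv
    exact ⟨z, hz, hzy, hQ z hz hzn⟩
  obtain ⟨B1, hB10, hB1⟩ := avg1u h.toPreHyp hcu hL hκ hO hin'
  obtain ⟨B2, hB20, hB2⟩ := avg_tru h (tr_sw K) hcv hcw hcu' hcu (τ := tw) (fun v y => rfl) mp_tw
    (dK := fun x => fderiv ℝ K.g22 x (e4 K x))
    (fun x hx => by
      show fderiv ℝ (fun y => K.g22 (Tw.symm y)) (Tw x) (e4 K.sw (Tw x)) = _
      rw [fderiv_T (hKd x hx).g22, sw_e4]) hL hκ hO hin'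
  obtain ⟨B3, hB30, hB3⟩ := avg_tru h (tr_sh K) hcv hcw hcu' hcu (τ := ts) (fun v y => rfl) mp_ts
    (dK := fun x => fderiv ℝ K.g11 x (e4 K x) + 2 * fderiv ℝ K.g12 x (e4 K x) +
      fderiv ℝ K.g22 x (e4 K x))
    (fun x hx => by
      show fderiv ℝ (fun y => K.g11 (Ts.symm y) +
          2 * K.g12 (Ts.symm y) + K.g22 (Ts.symm y)) (Ts x) (e4 K.sh (Ts x)) = _
      rw [fT_add3 (hKd x hx).g11 (hKd x hx).g12 (hKd x hx).g22, sh_e4]) hL hκ hO hin'
  refine ⟨B1 + B2 + B3, by positivity, fun φ hφ hφc hφO v hv => ?_⟩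
  obtain ⟨i1, k1⟩ := hB1 φ hφ hφc hφO v hv
  obtain ⟨i2, k2⟩ := hB2 φ hφ hφc hφO v hv
  obtain ⟨i3, k3⟩ := hB3 φ hφ hφc hφO v hv
  have iφ : Integrable (fun y => |φ y|) := (hφ.continuous.integrable_of_hasCompactSupport hφc).abs
  have id : ∀ e, Integrable (fun y => |fderiv ℝ φ y e|) := fun e =>
    (integral_fderiv_zero hφ hφc e).1.abs
  set Q : ℝ := ∫ y, (|fderiv ℝ φ y (1, 0, 0)| + |fderiv ℝ φ y (0, 0, 1)| + |φ y|) with hQdef
  have iQ : Integrable (fun y => |fderiv ℝ φ y (1, 0, 0)| + |fderiv ℝ φ y (0, 0, 1)| + |φ y|) :=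
    ((id _).add (id _)).add iφ
  have hQ0 : 0 ≤ Q := integral_nonneg fun y => by positivity
  have q1 : ∫ y, (|fderiv ℝ φ y (1, 0, 0)| + |φ y|) ≤ Q :=
    integral_mono ((id _).add iφ) iQ fun y => by
      have := abs_nonneg (fderiv ℝ φ y (0, 0, 1))
      simp only [Pi.add_apply]
      linarith
  have q2 : ∫ y, (|fderiv ℝ φ y (tw.symm (1, 0, 0))| + |φ y|) ≤ Q :=
    integral_mono ((id _).add iφ) iQ fun y => by
      have e : (tw.symm ((1, 0, 0) : P3)) = (0, 0, 1) := rfl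
      have := abs_nonneg (fderiv ℝ φ y (1, 0, 0))
      simp only [Pi.add_apply, e]
      linarith
  have q3 : ∫ y, (|fderiv ℝ φ y (ts.symm (1, 0, 0))| + |φ y|) ≤ Q :=
    integral_mono ((id _).add iφ) iQ fun y => by
      have e : (ts.symm ((1, 0, 0) : P3)) = (1, 0, 0) + (0, 0, 1) := by
        show ((1, 0, 0 + 1) : P3) = _
        simp
      have := abs_add_le (fderiv ℝ φ y (1, 0, 0)) (fderiv ℝ φ y (0, 0, 1))
      simp only [Pi.add_apply, e, map_add]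
      linarith
  have k1' : |∫ y, φ y * fderiv ℝ K.g11 (ins v y) (e4 K (ins v y))| ≤ B1 * Q :=
    le_trans k1 (mul_le_mul_of_nonneg_left q1 hB10)
  have k2' : |∫ y, φ y * fderiv ℝ K.g22 (ins v y) (e4 K (ins v y))| ≤ B2 * Q :=
    le_trans k2 (mul_le_mul_of_nonneg_left q2 hB20)
  have k3' := le_trans k3 (mul_le_mul_of_nonneg_left q3 hB30)
  have p1 : 0 ≤ B1 * Q := by positivity
  have p2 : 0 ≤ B2 * Q := by positivity
  have p3 : 0 ≤ B3 * Q := by positivity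
  have hsum : (B1 + B2 + B3) * Q = B1 * Q + B2 * Q + B3 * Q := by ring
  rw [hsum]
  refine ⟨by linarith, ?_, by linarith⟩
  have e : ∫ y, φ y * fderiv ℝ K.g12 (ins v y) (e4 K (ins v y)) =
      1 / 2 * ((∫ y, φ y * (fderiv ℝ K.g11 (ins v y) (e4 K (ins v y)) +
        2 * fderiv ℝ K.g12 (ins v y) (e4 K (ins v y)) +
        fderiv ℝ K.g22 (ins v y) (e4 K (ins v y)))) -
        (∫ y, φ y * fderiv ℝ K.g11 (ins v y) (e4 K (ins v y))) -
        ∫ y, φ y * fderiv ℝ K.g22 (ins v y) (e4 K (ins v y))) := by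
    have i1' : Integrable (fun y => φ y * fderiv ℝ K.g11 (ins v y) (e4 K (ins v y))) := i1
    have i4 : Integrable (fun y => φ y * (fderiv ℝ K.g11 (ins v y) (e4 K (ins v y)) +
        2 * fderiv ℝ K.g12 (ins v y) (e4 K (ins v y)) +
        fderiv ℝ K.g22 (ins v y) (e4 K (ins v y))) -
        φ y * fderiv ℝ K.g11 (ins v y) (e4 K (ins v y))) := i3.sub i1'
    rw [← integral_sub i3 i1', ← integral_sub i4 i2, ← integral_const_mul]
    refine integral_congr_ae (Filter.Eventually.of_forall fun y => ?_)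
    simp only
    ring
  rw [e, abs_le]
  rw [abs_le] at k1' k2' k3'
  constructor <;> linarith [k1'.1, k1'.2, k2'.1, k2'.2, k3'.1, k3'.2]

end Vale.Agent.P354cb
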