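import Vale.Agent.P354c.Avg1
import Vale.Agent.P354n.Front2
import Vale.Agent.P354k.FD

set_option linter.unusedSectionVars false
set_option maxSynthPendingDepth 3

open scoped Manifold ContDiff
open MeasureTheory Set Topology Filter

namespace Vale.Agent.P354cb

open Vale.Agent.P354p
open Vale.Agent.P354 (P4 P3 norm_P4_le MB)
open Vale.Agent.P354x (ins)
open Vale.Agent.P354k (Dm Dm_isOpen)

/-- the coordinates of the box in terms of v and the internal coordinates of the slice -/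
def mm (x : ℝ × P354w.P3) : R4 := (x.2.2.1, x.1, x.2.1, x.2.2.2)

lemma mm_eq (v : ℝ) (y : P354w.P3) : mm (v, y) = Sp.symm (ins v y) := rfl

lemma mm_cont : Continuous mm := by unfold mm; fun_prop

lemma mm_mp : MeasurePreserving mm := by
  have h1 := (MeasurePreserving.id (volume : Measure ℝ)).prod (mp_sw (α := ℝ) (β := ℝ) (γ := ℝ))
  exact (mp_sw (α := ℝ) (β := ℝ) (γ := ℝ × ℝ)).comp h1

lemma mm_emb : MeasurableEmbedding mm := by
  let inv : R4 → ℝ × P354w.P3 := fun x => (x.2.1, x.2.2.1, x.1, x.2.2.2)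
  have h2 : Measurable inv := by
    have : Continuous inv := by fun_prop
    exact this.measurable
  exact (⟨⟨mm, inv, fun _ => rfl, fun _ => rfl⟩, mm_cont.measurable, h2⟩ :
    (ℝ × P354w.P3) ≃ᵐ R4).measurableEmbedding

/-- an integral over the box as an iterated integral -/
lemma int_mm {F : R4 → ℝ} (hF : Integrable F) :
    Integrable (fun v => ∫ y, F (mm (v, y))) ∧ ∫ x, F x = ∫ v, ∫ y, F (mm (v, y)) := by
  have h1 : Integrable (fun w => F (mm w)) := (mm_mp.integrable_comp_emb mm_emb).2 hF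
  refine ⟨h1.integral_prod_left, ?_⟩
  rw [← mm_mp.integral_comp mm_emb]
  exact integral_prod _ h1

/-- the slices of a function -/
lemma slice_fun {φ : R4 → ℝ} (hφ : ContDiff ℝ 1 φ) (hφc : HasCompactSupport φ)
    {O : Set P354w.P3} {v0 : ℝ} (hφO : tsupport φ ⊆ Dm O v0) (v : ℝ) :
    ContDiff ℝ 1 (fun y => φ (mm (v, y))) ∧ HasCompactSupport (fun y => φ (mm (v, y))) ∧
    (v ∈ Ico v0 0 → tsupport (fun y => φ (mm (v, y))) ⊆ O) ∧
    (v ∉ Ico v0 0 → ∀ y, φ (mm (v, y)) = 0) ∧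
    ∀ y a, fderiv ℝ (fun y => φ (mm (v, y))) y a = fderiv ℝ φ (mm (v, y)) (mm (0, a)) := by
  have hc : Continuous (fun y : P354w.P3 => mm (v, y)) := mm_cont.comp (by fun_prop)
  set Lm : P354w.P3 →L[ℝ] R4 := ((ContinuousLinearMap.fst ℝ ℝ ℝ).comp
    (ContinuousLinearMap.snd ℝ ℝ (ℝ × ℝ))).prod ((0 : P354w.P3 →L[ℝ] ℝ).prod
      ((ContinuousLinearMap.fst ℝ ℝ (ℝ × ℝ)).prod ((ContinuousLinearMap.snd ℝ ℝ ℝ).comp
        (ContinuousLinearMap.snd ℝ ℝ (ℝ × ℝ))))) with hLm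
  have hLa : ∀ a, Lm a = mm (0, a) := fun a => rfl
  have hd : ∀ y : P354w.P3, HasFDerivAt (fun y : P354w.P3 => mm (v, y)) Lm y := by
    intro y
    have e : (fun y : P354w.P3 => mm (v, y)) = fun y => Lm y + (0, v, 0, 0) := by
      funext y
      rw [hLa]
      simp [mm]
    rw [e]
    exact Lm.hasFDerivAt.add_const _
  have hcd : ContDiff ℝ 1 (fun y : P354w.P3 => mm (v, y)) := by unfold mm; fun_prop
  refine ⟨hφ.comp hcd, ?_, ?_, ?_, ?_⟩
  · have h1 : IsCompact ((fun x : R4 => ((x.2.2.1, x.1, x.2.2.2) : P354w.P3)) '' tsupport φ) :=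
      hφc.isCompact.image (by fun_prop)
    refine HasCompactSupport.of_support_subset_isCompact h1 ?_
    intro y hy
    exact ⟨mm (v, y), subset_tsupport φ hy, rfl⟩
  · intro _
    have h1 : tsupport (fun y => φ (mm (v, y))) ⊆ (fun y => mm (v, y)) ⁻¹' tsupport φ := by
      refine closure_minimal ?_ ((isClosed_tsupport φ).preimage hc)
      intro y hy
      exact subset_tsupport φ hy
    intro y hy
    exact (hφO (h1 hy)).1
  · intro hv y
    by_contra hne
    have h1 := hφO (subset_tsupport φ hne)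
    exact hv ⟨h1.2.1.le, h1.2.2⟩
  · intro y a
    have h1 := (hφ.differentiable (by norm_num) (mm (v, y))).hasFDerivAt.comp y (hd y)
    have h2 : fderiv ℝ (fun y => φ (mm (v, y))) y = _ := h1.fderiv
    rw [h2, ContinuousLinearMap.comp_apply, hLa]

/-- **The v derivatives of the metric are bounded as distributions** if there is a Lipschitz
extension. -/
theorem avg4 {M N : Spc} {ι : M.pt → N.pt} {h : IsOpenEmbedding ι} [Nonempty M.pt]
    (hM : IsSpacetime IsSmooth M) (hg' : IsSpacetime (IsC0W1 ⊤) N) (hI : IsIsom ι)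
    {e : M.Chart} {C : ℕ → R4 → ℝ} {z : R4} {r K : ℝ} {k : ℝ → ℝ} {p : N.pt} {e' : N.Chart}
    {A : R4 ≃L[ℝ] R4} {R0 Cc t0 r1 : ℝ} {f : P3 → ℝ} (hB : FrontBox M e C z r K k)
    (hF : FrontData ⊤ M N ι h e C z r K k p e' A R0 Cc t0 r1 f) {O : Set P354w.P3}
    (hO : IsOpen O) {v0 : ℝ}
    (hin : ∀ y ∈ O, ∀ v ∈ Ico v0 0, ∃ z ∈ P354w.DD t0 r1 f,
      PsiF e e' ι h (co e' p) A z = ins v y ∧ ‖z.2‖ ≤ r1 / 4) :
    ∃ B : ℝ, 0 ≤ B ∧ ∀ i < 3, ∀ φ : R4 → ℝ, ContDiff ℝ 1 φ → HasCompactSupport φ →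
      tsupport φ ⊆ Dm O v0 → |∫ x, φ x * deriv (C i) x dv| ≤
        B * ∫ x, (|fderiv ℝ φ x (0, 0, 1, 0)| + |fderiv ℝ φ x (0, 0, 0, 1)| + |φ x|) := by
  have hr := hB.dn.r_pos
  have hK := hB.K_one
  have hCc := hF.Cc_large
  obtain ⟨L, hL⟩ := lip_bound hM hg' hI hF
  have hMB : ∀ y ∈ O, ∀ v ∈ Ico v0 0, ins v y ∈ MB (Sp z) r := by
    intro y hy v hv
    obtain ⟨w, hw, hwy, _⟩ := hin y hy v hv
    rw [← hwy]
    exact hF.core.maps (hF.core.DD_sub hw)
  obtain ⟨B, hB0, hBd⟩ := avg3u hF.core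
    (cvF_int (hB.dn.intg k (Or.inl rfl)).2 _)
    (cvF_int (hB.dn.intg k (Or.inl rfl)).2 _)
    (by
      rw [setLIntegral_const]
      exact ENNReal.mul_ne_top ENNReal.ofReal_ne_top (by simp [Real.volume_Icc]))
    (fun _ => by nlinarith) hL hO hin
  refine ⟨B + K ^ 2, by positivity, fun i hi φ hφ hφc hφO => ?_⟩
  have hvol := volume_haar
  -- integrability
  have hDo : IsOpen (Dm O v0) := Dm_isOpen hO v0
  have hDn : ∀ x ∈ Dm O v0, x ∈ nullBox z r := by
    intro x hx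
    have h1 := hMB _ hx.1 x.2.1 ⟨hx.2.1.le, hx.2.2⟩
    have h2 := Sp_symm_mem.1 h1
    exact h2
  have hFc : ∀ x ∈ Dm O v0, ContinuousAt (fun x => deriv (C i) x dv) x := by
    intro x hx
    have hN := nullBox_isOpen z r
    have h1 : ContDiffOn ℝ 1 (fun x => deriv (C i) x dv) (nullBox z r) :=
      (((hB.dn.smooth i).fderiv_of_isOpen hN (m := 1) (by norm_cast)).clm_apply
        contDiffOn_const).congr (fun w hw => deriv_eq (hB.diff hw i) dv)
    exact (h1.continuousOn).continuousAt (hN.mem_nhds (hDn x hx))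
  have i1 : Integrable (fun x => φ x * deriv (C i) x dv) := int_mul hφ.continuous hφc hφO hFc
  have iφ : Integrable (fun x => |φ x|) := (hφ.continuous.integrable_of_hasCompactSupport hφc).abs
  have id : ∀ a, Integrable (fun x => |fderiv ℝ φ x a|) := by
    intro a
    have c1 : Continuous (fun y => fderiv ℝ φ y a) :=
      (hφ.continuous_fderiv (by norm_num)).clm_apply continuous_const
    refine (c1.integrable_of_hasCompactSupport ?_).abs
    exact (hφc.fderiv (𝕜 := ℝ)).comp_left (g := fun L : R4 →L[ℝ] ℝ => L a) (by simp)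
  have i2 : Integrable (fun x => |fderiv ℝ φ x (0, 0, 1, 0)| + |fderiv ℝ φ x (0, 0, 0, 1)| +
      |φ x|) := ((id _).add (id _)).add iφ
  obtain ⟨j1, e1⟩ := int_mm i1
  obtain ⟨j2, e2⟩ := int_mm i2
  rw [e1, e2, ← integral_const_mul, ← Real.norm_eq_abs]
  refine norm_integral_le_of_norm_le (j2.const_mul _) (Filter.Eventually.of_forall fun v => ?_)
  rw [Real.norm_eq_abs]
  obtain ⟨s1, s2, s3, s4, s5⟩ := slice_fun hφ hφc hφO v
  by_cases hv : v ∈ Ico v0 0
  · set ψ : P354w.P3 → ℝ := fun y => φ (mm (v, y)) with hψ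
    have hψO := s3 hv
    have iψ : Integrable (fun y => |ψ y|) :=
      (s1.continuous.integrable_of_hasCompactSupport s2).abs
    have iψd : ∀ e, Integrable (fun y => |fderiv ℝ ψ y e|) := fun e =>
      (P354a.integral_fderiv_zero s1 s2 e).1.abs
    have e3 : (∫ y, (|fderiv ℝ φ (mm (v, y)) (0, 0, 1, 0)| +
        |fderiv ℝ φ (mm (v, y)) (0, 0, 0, 1)| + |φ (mm (v, y))|)) =
        ∫ y, (|fderiv ℝ ψ y (1, 0, 0)| + |fderiv ℝ ψ y (0, 0, 1)| + |ψ y|) := by
      refine integral_congr_ae (Filter.Eventually.of_forall fun y => ?_)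
      simp only [s5]
      rfl
    rw [e3]
    set Q : ℝ := ∫ y, (|fderiv ℝ ψ y (1, 0, 0)| + |fderiv ℝ ψ y (0, 0, 1)| + |ψ y|) with hQ
    have h1 := hBd ψ s1 s2 hψO v hv
    have h2 : |∫ y, ψ y * deriv (C i) (Sp.symm (ins v y)) dv| ≤ B * Q + K ^ 2 * ∫ y, |ψ y| := by
      refine slice_bd hB (fun y hy => hMB y hy v hv) s1.continuous s2 hψO hi ?_
      interval_cases i
      · exact h1.1
      · exact h1.2.1
      · exact h1.2.2
    have h3 : ∫ y, |ψ y| ≤ Q := integral_mono iψ (((iψd _).add (iψd _)).add iψ) fun y => by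
      have := abs_nonneg (fderiv ℝ ψ y (1, 0, 0))
      have := abs_nonneg (fderiv ℝ ψ y (0, 0, 1))
      simp only [Pi.add_apply]
      linarith
    have h4 : K ^ 2 * ∫ y, |ψ y| ≤ K ^ 2 * Q := mul_le_mul_of_nonneg_left h3 (by positivity)
    calc _ ≤ B * Q + K ^ 2 * ∫ y, |ψ y| := h2
      _ ≤ (B + K ^ 2) * Q := by linarith
  · have h1 : (fun y => φ (mm (v, y)) * deriv (C i) (mm (v, y)) dv) = fun _ => 0 := by
      funext y
      rw [s4 hv y, zero_mul]
    rw [h1, integral_zero, abs_zero]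
    refine mul_nonneg (by positivity) (integral_nonneg fun y => ?_)
    positivity

end Vale.Agent.P354cb
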