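import Vale.Agent.P354c.Global

set_option linter.unusedSectionVars false
set_option maxSynthPendingDepth 3

open scoped Manifold ContDiff
open MeasureTheory Set Topology Filter

namespace Vale.Agent.P354c

section

variable {M : Spc}

lemma nondeg (hM : IsSpacetime IsSmooth M) {e : M.Chart} {x : R4} (hx : x ∈ tgt e)
    (ℓ : R4 →ₗ[ℝ] ℝ) : ∃ w, ∀ c, M.g e x w c = ℓ c := by
  have hb := hM.up.bilin (M := Up M) e hx
  obtain ⟨L, hL, hLi, hLm⟩ := hM.signature e x hx
  set L' : R4 →ₗ[ℝ] R4 := hL.mk' L with hL'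
  have hsurj : Function.Surjective L' := LinearMap.injective_iff_surjective.1 hLi
  let T : R4 →ₗ[ℝ] (R4 →ₗ[ℝ] ℝ) := LinearMap.mk₂ ℝ (M.g e x) (fun a b c => hb.add_left a b c)
    (fun t a b => hb.smul_left t a b) (fun a b c => hb.add_right a b c)
    (fun t a b => hb.smul_right t a b)
  have hT : ∀ w c, T w c = M.g e x w c := fun w c => rfl
  have hTi : Function.Injective T := by
    rw [injective_iff_map_eq_zero]
    intro w hw
    have h1 : ∀ c, mink (L w) (L c) = 0 := by
      intro c
      rw [← hLm, ← hT, hw]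
      rfl
    obtain ⟨c, hc⟩ := hsurj (-(L w).1, (L w).2)
    have h2 := h1 c
    have hc' : L c = (-(L w).1, (L w).2) := hc
    rw [hc'] at h2
    simp only [mink, cu, cv, c1, c2] at h2
    have h3 : (L w).1 ^ 2 + (L w).2.1 ^ 2 + (L w).2.2.1 ^ 2 + (L w).2.2.2 ^ 2 = 0 := by
      linarith
    have p1 := sq_nonneg (L w).1
    have p2 := sq_nonneg (L w).2.1
    have p3 := sq_nonneg (L w).2.2.1
    have p4 := sq_nonneg (L w).2.2.2
    have q1 : (L w).1 = 0 := pow_eq_zero_iff (n := 2) (by norm_num) |>.1 (by linarith)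
    have q2 : (L w).2.1 = 0 := pow_eq_zero_iff (n := 2) (by norm_num) |>.1 (by linarith)
    have q3 : (L w).2.2.1 = 0 := pow_eq_zero_iff (n := 2) (by norm_num) |>.1 (by linarith)
    have q4 : (L w).2.2.2 = 0 := pow_eq_zero_iff (n := 2) (by norm_num) |>.1 (by linarith)
    have h4 : L w = 0 := by
      ext
      · exact q1
      · exact q2
      · exact q3
      · exact q4
    have h5 : L' w = L' 0 := by
      rw [map_zero]; exact h4
    exact hLi h5
  have hTs : Function.Surjective T :=
    (LinearMap.injective_iff_surjective_of_finrank_eq_finrank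
      (Subspace.dual_finrank_eq (K := ℝ) (V := R4)).symm).1 hTi
  obtain ⟨w, hw⟩ := hTs ℓ
  exact ⟨w, fun c => by rw [← hT, hw]⟩

/-- **The connection exists.** -/
theorem exists_conn (hM : IsSpacetime IsSmooth M) (e : M.Chart) :
    ∃ G : R4 → R4 → R4 → R4, ∀ x ∈ tgt e, IsConn (M.g e) G x := by
  have hopen : IsOpen (tgt e) := (M.toE e).open_target
  have hd : ∀ a b, ∀ x ∈ tgt e, DifferentiableAt ℝ (fun y => M.g e y a b) x := by
    intro a b x hx
    have h1 : ContDiffOn ℝ ∞ (fun y => M.g e y a b) (tgt e) := hM.regular e a b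
    exact (h1.contDiffAt (hopen.mem_nhds hx)).differentiableAt (by simp)
  have hder : ∀ a b c, ∀ x ∈ tgt e, deriv (fun y => M.g e y a b) x c =
      fderiv ℝ (fun y => M.g e y a b) x c := fun a b c x hx => (hd a b x hx).lineDeriv_eq_fderiv
  have hadd : ∀ b c c' a, ∀ x ∈ tgt e, fderiv ℝ (fun y => M.g e y b (c + c')) x a =
      fderiv ℝ (fun y => M.g e y b c) x a + fderiv ℝ (fun y => M.g e y b c') x a := by
    intro b c c' a x hx
    have h1 : (fun y => M.g e y b (c + c')) =ᶠ[𝓝 x] fun y => M.g e y b c + M.g e y b c' := by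
      filter_upwards [hopen.mem_nhds hx] with y hy
      exact (hM.up.bilin (M := Up M) e hy).add_right b c c'
    rw [h1.fderiv_eq, fderiv_fun_add (hd b c x hx) (hd b c' x hx)]
    rfl
  have hsmul : ∀ b c (t : ℝ) a, ∀ x ∈ tgt e, fderiv ℝ (fun y => M.g e y b (t • c)) x a =
      t * fderiv ℝ (fun y => M.g e y b c) x a := by
    intro b c t a x hx
    have h1 : (fun y => M.g e y b (t • c)) =ᶠ[𝓝 x] fun y => t * M.g e y b c := by
      filter_upwards [hopen.mem_nhds hx] with y hy
      exact (hM.up.bilin (M := Up M) e hy).smul_right t b c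
    rw [h1.fderiv_eq, fderiv_const_mul (hd b c x hx)]
    rfl
  have key : ∀ x a b, ∃ w, x ∈ tgt e → ∀ c, M.g e x w c = (deriv (fun y => M.g e y b c) x a +
      deriv (fun y => M.g e y a c) x b - deriv (fun y => M.g e y a b) x c) / 2 := by
    intro x a b
    by_cases hx : x ∈ tgt e
    · have hlin : IsLinearMap ℝ (fun c => (deriv (fun y => M.g e y b c) x a +
          deriv (fun y => M.g e y a c) x b - deriv (fun y => M.g e y a b) x c) / 2) := by
        constructor
        · intro c c'
          simp only [hder _ _ _ x hx, hadd _ _ _ _ x hx, map_add]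
          ring
        · intro t c
          simp only [hder _ _ _ x hx, hsmul _ _ _ _ x hx, map_smul, smul_eq_mul]
          ring
      obtain ⟨w, hw⟩ := nondeg hM hx (hlin.mk' _)
      exact ⟨w, fun _ c => hw c⟩
    · exact ⟨0, fun h => absurd h hx⟩
  choose G hG using key
  refine ⟨G, fun x hx a b c => ?_⟩
  rw [hG x a b hx c]
  ring

end

end Vale.Agent.P354c
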