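import Vale.Agent.P354c.Avg2
import Vale.Agent.P354c.Defs
import Vale.Agent.P354k.Main2

set_option linter.unusedSectionVars false
set_option maxSynthPendingDepth 3

open scoped Manifold ContDiff
open MeasureTheory Set Topology Filter

namespace Vale.Agent.P354c

open Vale.Agent.P354 (P4 P3 norm_P4_le MB)
open Vale.Agent.P354x (ins)
open Vale.Agent.P354cb (avg4)
open Vale.Agent.P354k (Dm Dm_isOpen int_le2 int_k box_sub cpt_box)
open Vale.Agent.P354p (sw3 sw3_cont Sp Sp_symm_apply Sp_symm_mem FrontBox exists_frontData_open)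

/-- the operator norm in terms of the partial derivatives -/
lemma norm_fderiv_le {φ : R4 → ℝ} {y : R4} : ‖fderiv ℝ φ y‖ ≤ |fderiv ℝ φ y d1| +
    |fderiv ℝ φ y d2| + (|fderiv ℝ φ y du| + |fderiv ℝ φ y dv|) := by
  refine ContinuousLinearMap.opNorm_le_bound _ (by positivity) fun a => ?_
  have e : a = a.1 • du + a.2.1 • dv + a.2.2.1 • d1 + a.2.2.2 • d2 := by
    ext <;> simp [du, dv, d1, d2]
  have h1 : |a.1| ≤ ‖a‖ := norm_fst_le a
  have h2 : |a.2.1| ≤ ‖a‖ := (norm_fst_le a.2).trans (norm_snd_le a)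
  have h3 : |a.2.2.1| ≤ ‖a‖ := (norm_fst_le a.2.2).trans ((norm_snd_le a.2).trans (norm_snd_le a))
  have h4 : |a.2.2.2| ≤ ‖a‖ := (norm_snd_le a.2.2).trans ((norm_snd_le a.2).trans (norm_snd_le a))
  have e2 : fderiv ℝ φ y a = a.1 * fderiv ℝ φ y du + a.2.1 * fderiv ℝ φ y dv +
      a.2.2.1 * fderiv ℝ φ y d1 + a.2.2.2 * fderiv ℝ φ y d2 := by
    conv_lhs => rw [e]
    simp only [map_add, map_smul, smul_eq_mul]
  rw [e2, Real.norm_eq_abs]
  have k1 : |a.1 * fderiv ℝ φ y du| ≤ ‖a‖ * |fderiv ℝ φ y du| := by rw [abs_mul]; gcongr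
  have k2 : |a.2.1 * fderiv ℝ φ y dv| ≤ ‖a‖ * |fderiv ℝ φ y dv| := by rw [abs_mul]; gcongr
  have k3 : |a.2.2.1 * fderiv ℝ φ y d1| ≤ ‖a‖ * |fderiv ℝ φ y d1| := by rw [abs_mul]; gcongr
  have k4 : |a.2.2.2 * fderiv ℝ φ y d2| ≤ ‖a‖ * |fderiv ℝ φ y d2| := by rw [abs_mul]; gcongr
  refine (abs_add_le _ _).trans ?_
  have t1 := abs_add_le (a.1 * fderiv ℝ φ y du + a.2.1 * fderiv ℝ φ y dv)
    (a.2.2.1 * fderiv ℝ φ y d1)
  have t2 := abs_add_le (a.1 * fderiv ℝ φ y du) (a.2.1 * fderiv ℝ φ y dv)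
  nlinarith [t1, t2, k1, k2, k3, k4]

lemma int_fderiv {φ : R4 → ℝ} (hφ : ContDiff ℝ 1 φ) (hφc : HasCompactSupport φ) (a : R4) :
    Integrable (fun y => |fderiv ℝ φ y a|) := by
  have hvol := P354p.volume_haar
  have c1 : Continuous (fun y => fderiv ℝ φ y a) :=
    (hφ.continuous_fderiv (by norm_num)).clm_apply continuous_const
  refine (c1.integrable_of_hasCompactSupport ?_).abs
  exact (hφc.fderiv (𝕜 := ℝ)).comp_left (g := fun L : R4 →L[ℝ] ℝ => L a) (by simp)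

lemma int_norm {φ : R4 → ℝ} (hφ : ContDiff ℝ 1 φ) (hφc : HasCompactSupport φ) :
    Integrable (fun y => ‖fderiv ℝ φ y‖) := by
  have hvol := P354p.volume_haar
  have c1 : Continuous (fun y => ‖fderiv ℝ φ y‖) := (hφ.continuous_fderiv (by norm_num)).norm
  refine c1.integrable_of_hasCompactSupport ?_
  exact (hφc.fderiv (𝕜 := ℝ)).norm

lemma der_eq {φ : R4 → ℝ} (hφ : ContDiff ℝ 1 φ) (y a : R4) : deriv φ y a = fderiv ℝ φ y a :=
  (hφ.differentiable (by norm_num) y).lineDeriv_eq_fderiv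

/-- **No Lipschitz extension through a front where the curvature or the derivative in the
direction v of the metric is large.** -/
theorem front_lip {M N : P354p.Spc} {ι : M.pt → N.pt}
    (hM : P354p.IsSpacetime P354p.IsSmooth M)
    (hg' : P354p.IsSpacetime (P354p.IsC0W1 ⊤) N) (h : IsOpenEmbedding ι) (hI : P354p.IsIsom ι)
    {c : ℝ → N.pt} (hc : P354p.IsFutureCurve N 0 (Icc 0 1) c) {a : ℝ → M.pt}
    (ha : ∀ t ∈ Ico (0:ℝ) 1, ι (a t) = c t)
    {e : M.Chart} {C : ℕ → R4 → ℝ} {z : R4} {r K : ℝ} {k : ℝ → ℝ} {Γ : R4 → R4 → R4 → R4}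
    (hB : FrontBox M e C z r K k)
    (hain : P354p.EndsAt a e (P354p.nullBox z r) z)
    (hΓ : ∀ x ∈ P354p.nullBox z r, P354k.Conn (M.g e) Γ x)
    (hall : ∀ x, cv x = 0 → ‖x - z‖ < r → ∀ c > 0,
      (∃ p q s t, IsBig (P354p.nullBox x c) 1 (fun y => 1 + k (cv y)) fun y =>
        P354k.Riem (M.g e) Γ y (P354k.fr C y p) (P354k.fr C y q) (P354k.fr C y s)
          (P354k.fr C y t)) ∨
      ∃ i < 3, IsBig (P354p.nullBox x c) 0 (fun _ => 1) fun y => deriv (C i) y dv) : False := by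
  have hne : Nonempty M.pt := ⟨a 0⟩
  have hr := hB.dn.r_pos
  have hK := hB.K_one
  obtain ⟨e', A, R0, Cc, t0, r1, f, hF, O, hO, ⟨y1, hy1⟩, v0, hv0, hin⟩ :=
    exists_frontData_open (h := h) le_top hM hg' hI hB hc ha hain
  have hMB : ∀ y ∈ O, ∀ v ∈ Ico v0 0, ins v y ∈ MB (Sp z) r := by
    intro y hy v hv
    obtain ⟨w, hw, hwy, _⟩ := hin y hy v hv
    rw [← hwy]
    exact hF.core.maps (hF.core.DD_sub hw)
  -- a point and a neighbourhood
  have hv2 : v0 / 2 ∈ Ioo v0 0 := ⟨by linarith, by linarith⟩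
  set x : R4 := Sp.symm (ins (v0 / 2) y1) with hx
  have hxn : x ∈ P354p.nullBox z r := by
    have := hMB y1 hy1 (v0 / 2) ⟨hv2.1.le, hv2.2⟩
    rw [Sp_symm_mem] at this
    exact this
  have hO'o : IsOpen (sw3 ⁻¹' O) := hO.preimage sw3_cont
  have hxO : ((x.1, x.2.2) : ℝ × ℝ × ℝ) ∈ sw3 ⁻¹' O := by
    rw [hx, Sp_symm_apply]
    exact hy1
  obtain ⟨ε, hε, hball⟩ := Metric.isOpen_iff.1 hO'o _ hxO
  have hc10 : 0 < min ε (-v0) := lt_min hε (by linarith)
  have hsub := box_sub hball (min_le_left ε (-v0)) (min_le_right ε (-v0))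
  have hDbox : ∀ y ∈ Dm O v0, y ∈ P354p.nullBox z r :=
    fun y hy => (P354k.mem_Dm hF hin hy).2.2.2.2
  have hxz : ‖((x.1, 0, x.2.2) : R4) - z‖ < r := by
    refine lt_of_le_of_lt ?_ hxn.1
    have h3 := norm_P4_le.1 (le_refl ‖x - z‖)
    simp only [Prod.fst_sub, Prod.snd_sub] at h3
    have hz0 : z.2.1 = 0 := hB.base
    refine norm_P4_le.2 ?_
    simp only [Prod.fst_sub, Prod.snd_sub]
    refine ⟨h3.1, ?_, h3.2.2.1, h3.2.2.2⟩
    rw [hz0, sub_zero, abs_zero]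
    exact norm_nonneg _
  rcases hall (x.1, 0, x.2.2) rfl hxz _ hc10 with ⟨p, q, s, t, hbad⟩ | ⟨i, hi, hbad⟩
  · obtain ⟨L, hL0, hL⟩ := int_le2 hM hg' hI hB hF hO hin hΓ p q s t
    obtain ⟨φ, hφ, hφs, hlt⟩ := hbad L
    have hφc := cpt_box hφs
    have hi : Integrable (fun y => (1 + k (P354p.cv y)) * |φ y|) :=
      int_k (hB.dn.intg k (Or.inl rfl)).1 hB.base (hB.dn.intg k (Or.inl rfl)).2 hφ.continuous hφc
        (fun y hy => hDbox y (hsub (hφs hy)))
    have h1 := hL φ hφ hφc (hφs.trans hsub) hi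
    have h2 : ∫ y, ((1 + k (P354p.cv y)) * |φ y| + ‖fderiv ℝ φ y‖) ≤
        int (fun x => (1 + k (cv x)) * |φ x| + |deriv φ x d1| + |deriv φ x d2| +
          1 * (|deriv φ x du| + |deriv φ x dv|)) := by
      simp only [der_eq hφ, one_mul]
      refine integral_mono (hi.add (int_norm hφ hφc)) ?_ fun y => ?_
      · exact ((hi.add (int_fderiv hφ hφc d1)).add (int_fderiv hφ hφc d2)).add
          ((int_fderiv hφ hφc du).add (int_fderiv hφ hφc dv))
      · have h3 := norm_fderiv_le (φ := φ) (y := y)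
        have h4 : (1 + k (P354p.cv y)) * |φ y| = (1 + k (cv y)) * |φ y| := rfl
        simp only [Pi.add_apply]
        linarith
    have h3 := mul_le_mul_of_nonneg_left h2 hL0
    have h4 := h1.trans h3
    exact absurd h4 (not_le.2 hlt)
  · obtain ⟨L, hL0, hL⟩ := avg4 hM hg' hI hB hF hO hin
    obtain ⟨φ, hφ, hφs, hlt⟩ := hbad L
    have hφc := cpt_box hφs
    have h1 := hL i hi φ hφ hφc (hφs.trans hsub)
    refine absurd (h1.trans (le_of_eq ?_)) (not_le.2 hlt)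
    congr 1
    refine integral_congr_ae (Filter.Eventually.of_forall fun y => ?_)
    simp only [der_eq hφ, zero_mul, add_zero, one_mul]
    have e1 : fderiv ℝ φ y (0, 0, 1, 0) = fderiv ℝ φ y d1 := rfl
    have e2 : fderiv ℝ φ y (0, 0, 0, 1) = fderiv ℝ φ y d2 := rfl
    rw [e1, e2]
    ring

end Vale.Agent.P354c
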