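import Vale.Agent.P354c.Defs
import Vale.Agent.P354c.Front
import Vale.Agent.P354k.Lip
import Vale.Agent.P354n.Corner
import Vale.Agent.P354p.QFar

set_option linter.unusedSectionVars false
set_option maxSynthPendingDepth 3

open scoped Manifold ContDiff
open MeasureTheory Set Topology Filter

namespace Vale.Agent.P354c

/-- the same space, with the definitions of the internal folder -/
abbrev Up (M : Spc) : P354p.Spc where
  pt := M.pt
  top := M.top
  hausdorff := M.hausdorff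
  Chart := M.Chart
  toE := M.toE
  cover := M.cover
  g := M.g
  X := M.X

lemma smooth_eq : IsSmooth = P354p.IsSmooth := rfl

lemma deriv_eq' : deriv = P354p.deriv := rfl

section

variable {M N : Spc} {Reg : (R4 → ℝ) → Set R4 → Prop} {ι : M.pt → N.pt}

theorem IsIsom.up {f : M.pt → N.pt} (h : IsIsom f) :
    P354p.IsIsom (M := Up M) (N := Up N) f := by
  rintro e e' F D rfl rfl
  exact ⟨fun y hy => ((h e e' _ rfl y hy.1 hy.2).1).contDiffWithinAt,
    fun y hy => (h e e' _ rfl y hy.1 hy.2).2⟩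

theorem IsSpacetime.up (h : IsSpacetime Reg M) : P354p.IsSpacetime Reg (Up M) where
  tensor := h.tensor.up
  signature := h.signature
  timelike := h.timelike
  continuous := h.continuous
  regular := h.regular

theorem IsSpacetime.upL (h : IsSpacetime IsLip M) :
    P354p.IsSpacetime (P354p.IsC0W1 ⊤) (Up M) where
  tensor := h.tensor.up
  signature := h.signature
  timelike := h.timelike
  continuous := h.continuous
  regular := fun e a b => P354k.isC0W1_of_locallyLipschitzOn (M.toE e).open_target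
    (h.regular e a b)

theorem IsFutureCurve.up {m : ℝ} {A : Set ℝ} {c : ℝ → M.pt} (h : IsFutureCurve M m A c)
    (hm : 0 ≤ m) : P354p.IsFutureCurve (Up M) m A c := by
  refine ⟨h.1, fun t ht e he => ?_⟩
  obtain ⟨h1, h2⟩ := h.2 t ht e he
  refine ⟨h1, fun y w hy hw => ?_⟩
  obtain ⟨h3, h4⟩ := h2 y w hy hw
  exact ⟨lt_of_lt_of_le h3 (by linarith), h3.le, h4⟩

theorem IsFutureCurve.of {A : Set ℝ} {c : ℝ → M.pt}
    (h : P354p.IsFutureCurve (Up M) 0 A c) : IsFutureCurve M 0 A c := by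
  refine ⟨h.1, fun t ht e he => ?_⟩
  obtain ⟨h1, h2⟩ := h.2 t ht e he
  refine ⟨h1, fun y w hy hw => ?_⟩
  obtain ⟨h3, _, h4⟩ := h2 y w hy hw
  exact ⟨by rw [neg_zero]; exact h3, h4⟩

theorem isFar_up {a : ℝ → M.pt} (h : IsFar M a) : P354p.IsFar (Up M) a := by
  intro b hb
  obtain ⟨s, hs, h1⟩ := h b hb
  refine ⟨s, hs, fun L => ?_⟩
  obtain ⟨t, ht, H, h2, h3, h4, h5⟩ := h1 (max L 0)
  refine ⟨t, ht, fun p => H p.1 p.2, h2, h3, fun y hy => ⟨(h4 y hy).1.up le_rfl, (h4 y hy).2⟩, ?_⟩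
  have h6 := h5.up (le_max_right _ _)
  refine ⟨h6.1, fun t ht e he => ⟨(h6.2 t ht e he).1, fun y w hy hw => ?_⟩⟩
  obtain ⟨k1, k2, k3⟩ := (h6.2 t ht e he).2 y w hy hw
  exact ⟨k1, k2.trans (by linarith [le_max_left L 0]), k3⟩

lemma nullBox_eq (z : R4) (r : ℝ) : nullBox z r = P354p.nullBox z r := by
  ext x
  show (x ∈ Metric.ball z r ∧ cv x < 0) ↔ (‖x - z‖ < r ∧ P354p.cv x < 0)
  rw [mem_ball_iff_norm]
  rfl

lemma cornerBox_eq (z : R4) (r : ℝ) : cornerBox z r = P354p.cornerBox z r := by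
  ext x
  show (x ∈ nullBox z r ∧ cu x < 0) ↔ (x ∈ P354p.nullBox z r ∧ P354p.cu x < 0)
  rw [nullBox_eq]
  rfl

end

end Vale.Agent.P354c
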