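import Vale.Agent.P354c.Conv

set_option linter.unusedSectionVars false
set_option maxSynthPendingDepth 3

open scoped Manifold ContDiff
open MeasureTheory Set Topology Filter

namespace Vale.Agent.P354c

/-- the coefficients g12, om instead of 2 g12, 2 om -/
noncomputable def half (C : ℕ → R4 → ℝ) (i : ℕ) (x : R4) : ℝ :=
  if i = 1 ∨ i = 3 then C i x / 2 else C i x

lemma half_abs (C : ℕ → R4 → ℝ) (i : ℕ) (x : R4) : |half C i x| ≤ |C i x| := by
  unfold half
  split_ifs
  · rw [abs_div, abs_of_pos (by norm_num : (0:ℝ) < 2)]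
    have := abs_nonneg (C i x)
    linarith
  · exact le_rfl

lemma half_deriv (C : ℕ → R4 → ℝ) (i : ℕ) (x a : R4) :
    deriv (half C i) x a = if i = 1 ∨ i = 3 then deriv (C i) x a / 2 else deriv (C i) x a := by
  split_ifs with h
  · have e : half C i = fun x => C i x / 2 := by
      funext x
      rw [half, if_pos h]
    rw [e]
    show _root_.deriv (fun t : ℝ => C i (x + t • a) / 2) 0 = _
    rw [deriv_div_const]
    rfl
  · have e : half C i = C i := by
      funext x
      rw [half, if_neg h]
    rw [e]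

lemma half_deriv_abs (C : ℕ → R4 → ℝ) (i : ℕ) (x a : R4) :
    |deriv (half C i) x a| ≤ |deriv (C i) x a| := by
  rw [half_deriv]
  split_ifs
  · rw [abs_div, abs_of_pos (by norm_num : (0:ℝ) < 2)]
    have := abs_nonneg (deriv (C i) x a)
    linarith
  · exact le_rfl

lemma half_ge (C : ℕ → R4 → ℝ) (i : ℕ) (x a : R4) :
    |deriv (C i) x a| ≤ 2 * |deriv (half C i) x a| := by
  rw [half_deriv]
  split_ifs
  · rw [abs_div, abs_of_pos (by norm_num : (0:ℝ) < 2)]
    linarith
  · have := abs_nonneg (deriv (C i) x a)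
    linarith

lemma half_smooth {C : ℕ → R4 → ℝ} {D : Set R4} (h : ∀ i, IsSmooth (C i) D) (i : ℕ) :
    IsSmooth (half C i) D := by
  by_cases hi : i = 1 ∨ i = 3
  · have e : half C i = fun x => C i x / 2 := by
      funext x
      rw [half, if_pos hi]
    rw [e]
    exact ContDiffOn.div_const (h i) 2
  · have e : half C i = C i := by
      funext x
      rw [half, if_neg hi]
    rw [e]
    exact h i

lemma form_half (C : ℕ → R4 → ℝ) (x a : R4) : P354p.form (half C) x a a = form C x a := by
  simp only [P354p.form, P354p.ang, P354p.h1, P354p.h2, form, h1, h2, half, P354p.cu, P354p.cv,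
    P354p.c1, P354p.c2, cu, cv, c1, c2]
  norm_num
  ring

lemma form_pol (C : ℕ → R4 → ℝ) (x a b : R4) :
    P354p.form C x (a + b) (a + b) = P354p.form C x a a + 2 * P354p.form C x a b +
      P354p.form C x b b := by
  simp only [P354p.form, P354p.ang, P354p.h1, P354p.h2, P354p.cu, P354p.cv,
    P354p.c1, P354p.c2, Prod.fst_add, Prod.snd_add]
  ring

section

variable {M N : Spc} {Reg : (R4 → ℝ) → Set R4 → Prop}

lemma form_of_quad (hM : IsSpacetime Reg M) {e : M.Chart} {C : ℕ → R4 → ℝ} {x : R4}
    (hx : x ∈ tgt e) (h : ∀ a, M.g e x a a = form C x a) (a b : R4) :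
    M.g e x a b = P354p.form (half C) x a b := by
  have hb := hM.up.bilin (M := Up M) e hx
  have hs := hM.up.symm (M := Up M) e hx a b
  have h0 : M.g e x (a + b) (a + b) = M.g e x a a + 2 * M.g e x a b + M.g e x b b := by
    have e1 : M.g e x (a + b) (a + b) = M.g e x a (a + b) + M.g e x b (a + b) :=
      hb.add_left a b (a + b)
    have e2 : M.g e x a (a + b) = M.g e x a a + M.g e x a b := hb.add_right a a b
    have e3 : M.g e x b (a + b) = M.g e x b a + M.g e x b b := hb.add_right b a b
    have e4 : M.g e x a b = M.g e x b a := hs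
    rw [e1, e2, e3, ← e4]
    ring
  have h1 := form_pol (half C) x a b
  rw [form_half, form_half, form_half, ← h, ← h, ← h] at h1
  linarith

lemma norm_sph {p q : ℝ} : p ^ 2 + q ^ 2 ≤ 2 * ‖((0, 0, p, q) : R4)‖ ^ 2 := by
  have h1 : |p| ≤ ‖((0, 0, p, q) : R4)‖ :=
    (norm_fst_le ((p, q) : ℝ × ℝ)).trans ((norm_snd_le ((0, p, q) : ℝ × ℝ × ℝ)).trans
      (norm_snd_le ((0, 0, p, q) : R4)))
  have h2 : |q| ≤ ‖((0, 0, p, q) : R4)‖ :=
    (norm_snd_le ((p, q) : ℝ × ℝ)).trans ((norm_snd_le ((0, p, q) : ℝ × ℝ × ℝ)).trans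
      (norm_snd_le ((0, 0, p, q) : R4)))
  have h3 : |p| ^ 2 ≤ ‖((0, 0, p, q) : R4)‖ ^ 2 := by gcongr
  have h4 : |q| ^ 2 ≤ ‖((0, 0, p, q) : R4)‖ ^ 2 := by gcongr
  rw [sq_abs] at h3 h4
  linarith

theorem IsDNBox.up {e : M.Chart} {C : ℕ → R4 → ℝ} {D : Set R4} {r K : ℝ} {k n : ℝ → ℝ}
    (h : IsDNBox M e C D K k n) (hM : IsSpacetime Reg M) (hr : 0 < r) {n' : ℝ → ℝ}
    (hn : ∀ x ∈ D, n (cu x) ≤ n' (cu x))
    (hn' : ∀ f, f = k ∨ f = n' → Measurable f ∧ P354p.InLp 1 f (-r)) :
    P354p.IsDNBox (Up M) e (half C) D r (2 * K) k n' where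
  r_pos := hr
  subset := h.subset
  smooth := fun i => half_smooth h.smooth i
  box := by
    intro x hx
    obtain ⟨h1, h2, h3, h4, h5, h6⟩ := h.metric x hx
    have h40 := (h4 0 rfl rfl).2
    have hK : 0 ≤ K := (abs_nonneg _).trans (h40 0 (by norm_num)).1
    refine ⟨form_of_quad hM (h.subset hx) h1, h2, ?_⟩
    exact
      { om_lower := by
          have e : half C 3 x = C 3 x / 2 := by simp [half]
          show 1 ≤ 2 * K * half C 3 x
          rw [e]
          linarith
        g_lower := by
          intro p q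
          have k1 := (h4 (0, 0, p, q) rfl rfl).1
          have k2 := norm_sph (p := p) (q := q)
          have k3 : form C x (0, 0, p, q) = P354p.ang (half C) x p q p q := by
            simp only [P354p.ang, form, P354c.h1, P354c.h2, half, cu, cv, c1, c2]
            norm_num
            ring
          rw [k3] at k1
          show p ^ 2 + q ^ 2 ≤ 2 * K * P354p.ang (half C) x p q p q
          linarith
        bound := by
          intro i hi
          refine ⟨(half_abs C i x).trans ((h40 i hi).1.trans (by linarith)), fun a ha hb => ?_⟩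
          have k1 := ((h4 a ha hb).2 i hi).2
          have k2 := half_deriv_abs C i x a
          have k3 : 0 ≤ K * ‖a‖ := by positivity
          show |deriv (half C i) x a| ≤ 2 * K * ‖a‖
          linarith
        torsion := by
          intro i hi
          have k1 := h5 i hi
          show |deriv (half C i) x du - deriv (half C (i + 2)) x dv| ≤ 2 * K
          rw [half_deriv, half_deriv, if_neg (by omega), if_neg (by omega)]
          linarith
        deriv_vu := by
          intro i hi
          obtain ⟨k1, k2⟩ := h6 i hi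
          exact ⟨(half_deriv_abs C i x dv).trans k1,
            (half_deriv_abs C i x du).trans (k2.trans (hn x hx))⟩ }
  integrable := hn'

end

end Vale.Agent.P354c
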