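import Vale.Agent.P354c.Conv2

set_option linter.unusedSectionVars false
set_option maxSynthPendingDepth 3

open scoped Manifold ContDiff
open MeasureTheory Set Topology Filter

namespace Vale.Agent.P354c

/-- the end point gives a positive radius -/
lemma EndsAt.nonempty {M : Spc} {a : ℝ → M.pt} {e : M.Chart} {D : Set R4} {z : R4}
    (h : EndsAt a e D z) : ∃ x, x ∈ D := by
  obtain ⟨t, ht⟩ := h.1.exists
  exact ⟨_, ht.2⟩

lemma nullBox_r {x z : R4} {r : ℝ} (h : x ∈ nullBox z r) : 0 < r := by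
  rw [nullBox_eq] at h
  exact lt_of_le_of_lt (norm_nonneg _) h.1

lemma IsDNBox.K_one {M : Spc} {e : M.Chart} {C : ℕ → R4 → ℝ} {D : Set R4} {K : ℝ} {k n : ℝ → ℝ}
    (h : IsDNBox M e C D K k n) {x : R4} (hx : x ∈ D) : 1 ≤ K := by
  obtain ⟨h1, h2, h3, h4, h5, h6⟩ := h.metric x hx
  have h40 := ((h4 0 rfl rfl).2 3 (by norm_num)).1
  have hK : 0 ≤ K := (abs_nonneg _).trans h40
  have h7 : K * C 3 x ≤ K * K := mul_le_mul_of_nonneg_left ((le_abs_self _).trans h40) hK
  by_contra hcon
  push Not at hcon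
  nlinarith

lemma fr_half (C : ℕ → R4 → ℝ) (x a : R4) : fr C x a = P354k.fr (half C) x a := by
  have h4 : half C 4 x = C 4 x := by simp [half]
  have h5 : half C 5 x = C 5 x := by simp [half]
  unfold fr P354k.fr
  rw [h4, h5]
  rfl

lemma riem_eq (g : R4 → R4 → R4 → ℝ) (G : R4 → R4 → R4 → R4) (x a b c d : R4) :
    Riem g G x a b c d = P354k.Riem g G x a b c d := rfl

lemma conn_iff {g : R4 → R4 → R4 → ℝ} {G : R4 → R4 → R4 → R4} {x : R4} (h : IsConn g G x) :
    P354k.Conn g G x := by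
  intro a b c
  rw [two_mul]
  exact h a b c

lemma isBig_half {C : ℕ → R4 → ℝ} {i : ℕ} {D : Set R4}
    (h : IsBig D 0 (fun _ => 1) fun y => deriv (C i) y dv) :
    IsBig D 0 (fun _ => 1) fun y => P354p.deriv (half C i) y P354p.dv := by
  intro L
  obtain ⟨φ, h1, h2, h3⟩ := h (2 * |L|)
  refine ⟨φ, h1, h2, ?_⟩
  set Q := int (fun x => (1:ℝ) * |φ x| + |deriv φ x d1| + |deriv φ x d2| +
    0 * (|deriv φ x du| + |deriv φ x dv|)) with hQ
  have hQ0 : 0 ≤ Q := integral_nonneg fun x => by positivity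
  have h4 : |int fun x => φ x * deriv (C i) x dv| ≤
      2 * |int fun x => φ x * deriv (half C i) x dv| := by
    by_cases hi : i = 1 ∨ i = 3
    · have e : (fun x => φ x * deriv (half C i) x dv) = fun x => (φ x * deriv (C i) x dv) / 2 := by
        funext x
        rw [half_deriv, if_pos hi]
        ring
      have e2 : (int fun x => φ x * deriv (half C i) x dv) =
          (int fun x => φ x * deriv (C i) x dv) / 2 := by
        rw [e]
        exact integral_div _ _
      rw [e2, abs_div, abs_of_pos (by norm_num : (0:ℝ) < 2)]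
      linarith
    · have e : (fun x => φ x * deriv (half C i) x dv) = fun x => φ x * deriv (C i) x dv := by
        funext x
        rw [half_deriv, if_neg hi]
      rw [e]
      have := abs_nonneg (int fun x => φ x * deriv (C i) x dv)
      linarith
  have h5 : 2 * |L| * Q < 2 * |int fun x => φ x * deriv (half C i) x dv| := lt_of_lt_of_le h3 h4
  have h6 : L * Q ≤ |L| * Q := mul_le_mul_of_nonneg_right (le_abs_self L) hQ0
  have h7 : |L| * Q < |int fun x => φ x * deriv (half C i) x dv| := by linarith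
  exact lt_of_le_of_lt h6 h7

section

variable {M N : Spc} {ι : M.pt → N.pt}

lemma const_inLp {r c : ℝ} : Measurable (fun _ : ℝ => c) ∧ P354p.InLp 1 (fun _ => c) (-r) := by
  refine ⟨measurable_const, ?_⟩
  show eLpNorm _ 1 (volume.restrict (Ioo (-r) 0)) < ⊤
  exact (memLp_const c).2

lemma k_inLp {k : ℝ → ℝ} (h : Measurable k ∧ Integrable k) {r : ℝ} :
    Measurable k ∧ P354p.InLp 1 k (-r) :=
  ⟨h.1, (memLp_one_iff_integrable.2 (h.2.integrableOn (s := Ioo (-r) 0))).2⟩

theorem front_n (hM : IsSpacetime IsSmooth M)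
    (hg' : IsSpacetime IsLip N) (h : IsOpenEmbedding ι) (hI : IsIsom ι) {c : ℝ → N.pt}
    (hc : IsFutureCurve N 0 I c) {a : ℝ → M.pt} (ha : ∀ t ∈ J, ι (a t) = c t)
    (hf : EndsAtFront M a) : False := by
  obtain ⟨e, C, z, r, K, k, G, hdn, hz, hain, hw, hall⟩ := hf
  obtain ⟨x0, hx0⟩ := hain.nonempty
  have hr := nullBox_r hx0
  have hK := hdn.K_one hx0
  have hdn' : P354p.IsDNBox (Up M) e (half C) (nullBox z r) r (2 * K) k (fun _ => 2 * K) :=
    hdn.up hM hr (fun _ _ => by linarith) (fun f hf => by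
      rcases hf with rfl | rfl
      · exact k_inLp hdn.integrable
      · exact const_inLp)
  rw [nullBox_eq] at hdn' hain
  have hw' : ∀ x ∈ P354p.nullBox z r, C 6 x = 0 ∧ C 7 x = 0 ∧ IsConn (M.g e) G x := by
    intro x hx
    rw [← nullBox_eq] at hx
    exact hw x hx
  have hB : P354p.FrontBox (Up M) e (half C) z r (2 * K) k :=
    ⟨hdn', hz, fun x hx => by simp [half, (hw' x hx).1, (hw' x hx).2.1]⟩
  refine front_lip (M := Up M) (N := Up N) hM.up hg'.upL h hI.up (hc.up le_rfl) ha hB (Γ := G)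
    hain (fun x hx => conn_iff (hw' x hx).2.2) (fun x hx hxr c hc => ?_)
  rcases hall x hx (by
      show x ∈ Metric.ball z r
      rw [mem_ball_iff_norm]; exact hxr) c hc with ⟨p, q, s, t, h1⟩ | ⟨i, hi, h1⟩
  · left
    refine ⟨p, q, s, t, ?_⟩
    rw [nullBox_eq] at h1
    simp only [fr_half] at h1
    exact h1
  · right
    refine ⟨i, hi, ?_⟩
    rw [nullBox_eq] at h1
    exact isBig_half h1

/-- **The local theorem.** -/
theorem local_inext (hM : IsSpacetime IsSmooth M)
    (hg' : IsSpacetime IsLip N) (h : IsOpenEmbedding ι) (hI : IsIsom ι) {c : ℝ → N.pt}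
    (hc : IsFutureCurve N 0 I c) {a : ℝ → M.pt} (ha : ∀ t ∈ J, ι (a t) = c t) :
    ¬ Ends M a := by
  rintro (hf | hcor | hfar)
  · exact front_n hM hg' h hI hc ha hf
  · obtain ⟨e, C, z, r, K, k, hdn, hu, hv, hain, hcl⟩ := hcor
    obtain ⟨x0, hx0⟩ := hain.nonempty
    have hr := nullBox_r hx0.1
    have hdn' : P354p.IsDNBox (Up M) e (half C) (cornerBox z r) r (2 * K) k k :=
      hdn.up hM hr (fun _ _ => le_rfl) (fun f hf => by
        rcases hf with rfl | rfl <;> exact k_inLp hdn.integrable)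
    have hain' := hain
    rw [cornerBox_eq] at hdn' hain'
    obtain ⟨a', c', hc', ha', hcur, y, hy, h1, h2, h3⟩ := P354p.corner_stepE le_top hM.up hg'.upL h
      hI.up (hc.up le_rfl) ha hdn' hu hv hain'
    rw [← cornerBox_eq] at hy
    exact front_n hM hg' h hI (IsFutureCurve.of hc') ha' (hcl a' (IsFutureCurve.of hcur) y hy
      (by
        show y ∈ Metric.ball z r
        rw [mem_ball_iff_norm]; exact h1) h2 h3)
  · exact P354p.not_isFar hM.up hg'.upL h hI.up (hc.up le_rfl) ha (isFar_up hfar)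

end

end Vale.Agent.P354c
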