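import Vale.Agent.P354c.ConnEx
import Vale.Agent.P354p.Ex4

set_option linter.unusedSectionVars false
set_option maxSynthPendingDepth 3

open scoped Manifold ContDiff
open MeasureTheory Set Topology Filter

namespace Vale.Agent.P354c

open Vale.Agent.P354 (norm_P4_le)
open Vale.Agent.P354cb (mm mm_mp mm_emb)

/-- a product of a function of the internal slice coordinates and a function of v -/
def pp (Φ : P354w.P3 → ℝ) (η : ℝ → ℝ) (x : R4) : ℝ := η x.2.1 * Φ (x.2.2.1, x.1, x.2.2.2)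

lemma pp_mm (Φ : P354w.P3 → ℝ) (η : ℝ → ℝ) (v : ℝ) (y : P354w.P3) :
    pp Φ η (mm (v, y)) = η v * Φ y := rfl

lemma pp_contDiff {Φ : P354w.P3 → ℝ} {η : ℝ → ℝ} (h1 : ContDiff ℝ 1 Φ) (h2 : ContDiff ℝ 1 η) :
    ContDiff ℝ 1 (pp Φ η) := by
  unfold pp
  have e1 : ContDiff ℝ 1 (fun x : R4 => x.2.1) := by fun_prop
  have e2 : ContDiff ℝ 1 (fun x : R4 => ((x.2.2.1, x.1, x.2.2.2) : P354w.P3)) := by fun_prop
  exact (h2.comp e1).mul (h1.comp e2)

lemma pp_deriv {Φ : P354w.P3 → ℝ} {η : ℝ → ℝ} (h1 : ContDiff ℝ 1 Φ) (h2 : ContDiff ℝ 1 η)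
    (v : ℝ) (y a : P354w.P3) :
    deriv (pp Φ η) (mm (v, y)) (mm (0, a)) = η v * fderiv ℝ Φ y a := by
  have e : ∀ t : ℝ, pp Φ η (mm (v, y) + t • mm (0, a)) = η v * Φ (y + t • a) := by
    intro t
    have : mm (v, y) + t • mm (0, a) = mm (v, y + t • a) := by simp [mm]
    rw [this, pp_mm]
  show _root_.deriv (fun t : ℝ => pp Φ η (mm (v, y) + t • mm (0, a))) 0 = _
  simp only [e]
  have h3 : HasLineDerivAt ℝ Φ (fderiv ℝ Φ y a) y a :=
    ((h1.differentiable (by norm_num)) y).hasFDerivAt.hasLineDerivAt a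
  have h4 : HasDerivAt (fun t : ℝ => Φ (y + t • a)) (fderiv ℝ Φ y a) 0 := h3
  exact (h4.const_mul (η v)).deriv

/-- **A function of v which is unbounded near v = 0 is not bounded as a distribution.** -/
theorem big_of_unbounded {x : R4} {c : ℝ} (hc : 0 < c) (hx : cv x = 0) {F : R4 → ℝ}
    {κ : ℝ → ℝ} (hκ : Integrable κ) (hF : ∀ y, -1 < cv y → cv y < 0 → F y = κ (cv y))
    (hun : ∀ m : ℝ, ∃ δ > 0, ∀ v ∈ Ioo (-δ) 0, m ≤ κ v) :
    IsBig (nullBox x c) 0 (fun _ => 1) F := by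
  intro L
  have hP3 : Measure.IsAddHaarMeasure (volume : Measure P354w.P3) := P354w.haarP3
  set y0 : P354w.P3 := (x.2.2.1, x.1, x.2.2.2) with hy0
  let Φ : ContDiffBump y0 := ⟨c / 4, c / 2, by positivity, by linarith⟩
  have hΦ1 : ContDiff ℝ 1 (Φ : P354w.P3 → ℝ) := Φ.contDiff
  have hΦc : HasCompactSupport (Φ : P354w.P3 → ℝ) := Φ.hasCompactSupport
  have hΦi : Integrable (Φ : P354w.P3 → ℝ) := Φ.integrable
  have hΦp : 0 < ∫ y, Φ y := Φ.integral_pos
  have hΦd : ∀ a, Integrable (fun y => |fderiv ℝ (Φ : P354w.P3 → ℝ) y a|) := fun a =>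
    (P354a.integral_fderiv_zero hΦ1 hΦc a).1.abs
  set A : ℝ := ∫ y, (|Φ y| + |fderiv ℝ (Φ : P354w.P3 → ℝ) y (1, 0, 0)| +
    |fderiv ℝ (Φ : P354w.P3 → ℝ) y (0, 0, 1)|) with hA
  set m : ℝ := (L * A) / (∫ y, Φ y) + 1 with hm
  obtain ⟨δ0, hδ0, hδm⟩ := hun m
  set δ : ℝ := min (min δ0 1) c with hδ
  have hδp : 0 < δ := lt_min (lt_min hδ0 one_pos) hc
  have hδ1 : δ ≤ δ0 := (min_le_left _ _).trans (min_le_left _ _)
  have hδ2 : δ ≤ 1 := (min_le_left _ _).trans (min_le_right _ _)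
  have hδ3 : δ ≤ c := min_le_right _ _
  let η : ContDiffBump (-(δ / 2)) := ⟨δ / 8, δ / 4, by positivity, by linarith⟩
  have hη1 : ContDiff ℝ 1 (η : ℝ → ℝ) := η.contDiff
  have hηi : Integrable (η : ℝ → ℝ) := η.integrable
  have hηp : 0 < ∫ v, η v := η.integral_pos
  have hη0 : ∀ v, 0 ≤ η v := fun v => η.nonneg
  have hηs : ∀ v, v ∉ Metric.closedBall (-(δ / 2)) (δ / 4) → η v = 0 := by
    intro v hv
    by_contra h0
    have h1 : v ∈ Function.support (η : ℝ → ℝ) := h0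
    rw [η.support_eq] at h1
    exact hv (Metric.ball_subset_closedBall h1)
  have hηr : ∀ v, η v ≠ 0 → -δ < v ∧ v < 0 := by
    intro v hv
    have h1 : v ∈ Metric.closedBall (-(δ / 2)) (δ / 4) := by
      by_contra h2
      exact hv (hηs v h2)
    rw [Metric.mem_closedBall, Real.dist_eq, abs_le] at h1
    constructor <;> linarith [h1.1, h1.2]
  have hcd : ContDiff ℝ 1 (pp Φ η) := pp_contDiff hΦ1 hη1
  refine ⟨pp Φ η, hcd, ?_, ?_⟩
  · have h1 : tsupport (pp Φ η) ⊆ {w : R4 | w.2.1 ∈ Metric.closedBall (-(δ / 2)) (δ / 4) ∧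
        ((w.2.2.1, w.1, w.2.2.2) : P354w.P3) ∈ Metric.closedBall y0 (c / 2)} := by
      refine closure_minimal ?_ ?_
      · intro w hw
        have h2 : η w.2.1 * Φ (w.2.2.1, w.1, w.2.2.2) ≠ 0 := hw
        have h3 : η w.2.1 ≠ 0 := left_ne_zero_of_mul h2
        have h4 : Φ (w.2.2.1, w.1, w.2.2.2) ≠ 0 := right_ne_zero_of_mul h2
        constructor
        · by_contra h5
          exact h3 (hηs _ h5)
        · have h5 : ((w.2.2.1, w.1, w.2.2.2) : P354w.P3) ∈ Function.support (Φ : P354w.P3 → ℝ) := h4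
          rw [Φ.support_eq] at h5
          exact Metric.ball_subset_closedBall h5
      · exact (Metric.isClosed_closedBall.preimage (by fun_prop)).inter
          (Metric.isClosed_closedBall.preimage (by fun_prop))
    intro w hw
    obtain ⟨h2, h3⟩ := h1 hw
    rw [Metric.mem_closedBall, Real.dist_eq, abs_le] at h2
    rw [Metric.mem_closedBall, dist_eq_norm] at h3
    have h4 : ((w.2.2.1, w.1, w.2.2.2) : P354w.P3) - y0 =
        (w.2.2.1 - x.2.2.1, w.1 - x.1, w.2.2.2 - x.2.2.2) := rfl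
    rw [h4] at h3
    have k1 : |w.2.2.1 - x.2.2.1| ≤ c / 2 := (norm_fst_le ((w.2.2.1 - x.2.2.1, w.1 - x.1,
      w.2.2.2 - x.2.2.2) : P354w.P3)).trans h3
    have k2 : |w.1 - x.1| ≤ c / 2 := ((norm_fst_le ((w.1 - x.1,
      w.2.2.2 - x.2.2.2) : ℝ × ℝ)).trans (norm_snd_le ((w.2.2.1 - x.2.2.1, w.1 - x.1,
      w.2.2.2 - x.2.2.2) : P354w.P3))).trans h3
    have k3 : |w.2.2.2 - x.2.2.2| ≤ c / 2 := ((norm_snd_le ((w.1 - x.1,
      w.2.2.2 - x.2.2.2) : ℝ × ℝ)).trans (norm_snd_le ((w.2.2.1 - x.2.2.1, w.1 - x.1,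
      w.2.2.2 - x.2.2.2) : P354w.P3))).trans h3
    have hx' : x.2.1 = 0 := hx
    constructor
    · show w ∈ Metric.ball x c
      rw [mem_ball_iff_norm]
      have h5 : ‖w - x‖ ≤ 3 / 4 * c := by
        refine norm_P4_le.2 ?_
        simp only [Prod.fst_sub, Prod.snd_sub]
        refine ⟨by linarith, ?_, by linarith, by linarith⟩
        rw [hx', sub_zero, abs_le]
        constructor <;> linarith [h2.1, h2.2]
      linarith
    · show w.2.1 < 0
      linarith [h2.2]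
  -- the two integrals
  have e1 : int (fun x => (fun _ => (1:ℝ)) x * |pp Φ η x| + |deriv (pp Φ η) x d1| +
      |deriv (pp Φ η) x d2| + 0 * (|deriv (pp Φ η) x du| + |deriv (pp Φ η) x dv|)) =
      (∫ v, η v) * A := by
    unfold int
    rw [← mm_mp.integral_comp mm_emb]
    have e2 : ∀ w : ℝ × P354w.P3, (fun _ => (1:ℝ)) (mm w) * |pp Φ η (mm w)| +
        |deriv (pp Φ η) (mm w) d1| + |deriv (pp Φ η) (mm w) d2| +
        0 * (|deriv (pp Φ η) (mm w) du| + |deriv (pp Φ η) (mm w) dv|) =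
        η w.1 * (|Φ w.2| + |fderiv ℝ (Φ : P354w.P3 → ℝ) w.2 (1, 0, 0)| +
          |fderiv ℝ (Φ : P354w.P3 → ℝ) w.2 (0, 0, 1)|) := by
      rintro ⟨v, y⟩
      have k1 : deriv (pp Φ η) (mm (v, y)) d1 = η v * fderiv ℝ (Φ : P354w.P3 → ℝ) y (1, 0, 0) :=
        pp_deriv hΦ1 hη1 v y (1, 0, 0)
      have k2 : deriv (pp Φ η) (mm (v, y)) d2 = η v * fderiv ℝ (Φ : P354w.P3 → ℝ) y (0, 0, 1) :=
        pp_deriv hΦ1 hη1 v y (0, 0, 1)
      simp only [k1, k2, pp_mm, abs_mul, abs_of_nonneg (hη0 v)]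
      ring
    simp only [e2]
    exact integral_prod_mul (μ := (volume : Measure ℝ)) (ν := (volume : Measure P354w.P3))
      (fun v => η v) (fun y => |Φ y| + |fderiv ℝ (Φ : P354w.P3 → ℝ) y (1, 0, 0)| +
          |fderiv ℝ (Φ : P354w.P3 → ℝ) y (0, 0, 1)|)
  have e3 : (int fun x => pp Φ η x * F x) = (∫ v, η v * κ v) * ∫ y, Φ y := by
    unfold int
    rw [← mm_mp.integral_comp mm_emb]
    have e2 : ∀ w : ℝ × P354w.P3, pp Φ η (mm w) * F (mm w) = (η w.1 * κ w.1) * Φ w.2 := by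
      rintro ⟨v, y⟩
      rw [pp_mm]
      by_cases hv : η v = 0
      · simp [hv]
      · obtain ⟨h1, h2⟩ := hηr v hv
        have h3 : F (mm (v, y)) = κ v := hF _ (by show -1 < v; linarith) h2
        rw [h3]
        ring
    simp only [e2]
    exact integral_prod_mul (μ := (volume : Measure ℝ)) (ν := (volume : Measure P354w.P3))
      (fun v => η v * κ v) (fun y => Φ y)
  rw [e1, e3]
  have hηκ : Integrable (fun v => η v * κ v) := by
    refine hκ.bdd_mul (c := 1) hη1.continuous.aestronglyMeasurable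
      (Filter.Eventually.of_forall fun v => ?_)
    rw [Real.norm_eq_abs, abs_of_nonneg (hη0 v)]
    exact η.le_one
  have h5 : m * ∫ v, η v ≤ ∫ v, η v * κ v := by
    rw [← integral_const_mul]
    refine integral_mono (hηi.const_mul m) hηκ fun v => ?_
    simp only
    by_cases hv : η v = 0
    · simp [hv]
    · obtain ⟨h1, h2⟩ := hηr v hv
      have h3 := hδm v ⟨by linarith, h2⟩
      have := mul_le_mul_of_nonneg_left h3 (hη0 v)
      linarith
  set B := ∫ y, Φ y with hB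
  set S := ∫ v, η v with hS
  have h6 : m * S * B ≤ (∫ v, η v * κ v) * B := mul_le_mul_of_nonneg_right h5 hΦp.le
  have h7 : m * B = L * A + B := by
    rw [hm]
    field_simp
  have h8 : L * (S * A) < m * S * B := by
    have : m * S * B = S * (L * A) + S * B := by
      calc m * S * B = S * (m * B) := by ring
        _ = _ := by rw [h7]; ring
    have h9 : 0 < S * B := mul_pos hηp hΦp
    linarith
  exact lt_of_lt_of_le h8 (h6.trans (le_abs_self _))

end Vale.Agent.P354c
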