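import Vale.Agent.P354c.Conv3

set_option linter.unusedSectionVars false
set_option maxSynthPendingDepth 3

open scoped Manifold ContDiff
open MeasureTheory Set Topology Filter

namespace Vale.Agent.P354c

/-- **The curve of an extension.** -/
theorem extension_curve (M N : Spc) (hM : IsSpacetime IsSmooth M)
    (ι : M.pt → N.pt) (c : ℝ → N.pt) (hE : IsFutureExtension IsLip M N ι c) :
    ∃ a, IsFutureCurve M 0 J a ∧ (∀ x, ¬ Tendsto a (𝓝[<] 1) (𝓝 x)) ∧ ¬ Ends M a := by
  have h0 : (0:ℝ) ∈ J := by constructor <;> norm_num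
  have hex : ∀ t : ℝ, ∃ x : M.pt, t ∈ J → ι x = c t := by
    intro t
    by_cases ht : t ∈ J
    · obtain ⟨x, hx⟩ := hE.curve_mem t ht
      exact ⟨x, fun _ => hx⟩
    · obtain ⟨x, hx⟩ := hE.curve_mem 0 h0
      exact ⟨x, fun h => absurd h ht⟩
  choose a ha using hex
  have ha' : ∀ t ∈ J, ι (a t) = c t := fun t ht => ha t ht
  refine ⟨a, IsFutureCurve.of (P354p.ray_of_curve (M := Up M) (N := Up N) hM.up
    hE.spacetime.upL hE.embedding hE.isometry.up (hE.curve.up le_rfl) ha'), ?_,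
    local_inext hM hE.spacetime hE.embedding hE.isometry hE.curve ha'⟩
  intro x hx
  have h1 : Tendsto (fun t => ι (a t)) (𝓝[<] 1) (𝓝 (ι x)) :=
    (hE.embedding.continuous.tendsto x).comp hx
  have h2 : Tendsto c (𝓝[<] 1) (𝓝 (c 1)) := by
    have h3 : ContinuousWithinAt c (Icc 0 1) 1 := hE.curve.1 1 (by constructor <;> norm_num)
    refine h3.mono_left ?_
    rw [← nhdsWithin_Ico_eq_nhdsLT (zero_lt_one (α := ℝ))]
    exact nhdsWithin_mono _ Ico_subset_Icc_self
  have h4 : Tendsto (fun t => ι (a t)) (𝓝[<] 1) (𝓝 (c 1)) := by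
    refine h2.congr' ?_
    filter_upwards [Ico_mem_nhdsLT (zero_lt_one (α := ℝ))] with t ht
    exact (ha' t ht).symm
  have h5 : ι x = c 1 := tendsto_nhds_unique h1 h4
  have h6 := hE.curve_end
  rw [hE.embedding.isOpen_range.frontier_eq] at h6
  exact h6.2 ⟨x, h5⟩

/-- Local and global theorem. -/
theorem inext0 : ∀ M, IsSpacetime IsSmooth M → (∀ N ι c a, IsFutureExtension IsLip M N ι c →
      (∀ t ∈ J, ι (a t) = c t) → ¬ Ends M a) ∧
      (AllEnd M → ∀ N ι c, ¬ IsFutureExtension IsLip M N ι c) := by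
  refine fun M hM => ⟨fun _ _ _ _ hE ha =>
      local_inext hM hE.spacetime hE.embedding hE.isometry hE.curve ha,
    fun h N ι c hE => ?_⟩
  obtain ⟨a, h1, h2, h3⟩ := extension_curve M N hM ι c hE
  exact h3 (h a h1 h2)

end Vale.Agent.P354c
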